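import Vale.Agent.Lib.P037.Cx.Sys

/-!
The concrete system built from a binary tree of depth `N`, with `r` rows per leaf.
-/

namespace Vale.Agent.P037.Cx

/-- the scale of class `t` -/
def sc (N t : ℕ) : ℕ := if t ≤ N then N - t else t - (N + 1)

/-- strictness of class `t` -/
def sg (N t : ℕ) : ℕ := if t ≤ N then 0 else 1

/-- the scale of the step from `t` to `t + 1` -/
def mx (N t : ℕ) : ℕ := if t < N then N - t else t - N

/-- position just after a block -/
def keyAfter (N q v : ℕ) : ℕ := (2 * N + 2) * ((v + 1) * 2 ^ q) + q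

/-- position just before a block -/
def keyBefore (N q v : ℕ) : ℕ := (2 * N + 2) * (v * 2 ^ q) + (2 * N + 1 - q)

/-- order key of rows -/
def keyR (N t x : ℕ) : ℕ :=
  if t ≤ N then keyAfter N (sc N t) (x / 2 ^ sc N t) else keyBefore N (sc N t) (x / 2 ^ sc N t)

/-- order key of columns -/
def keyC (N t x : ℕ) : ℕ :=
  if t ≤ N then keyBefore N (sc N t) (x / 2 ^ sc N t) else keyAfter N (sc N t) (x / 2 ^ sc N t)

lemma after_lt {N q v v' : ℕ} (h : v' ≤ 2 * v + 1) : keyAfter N q v' < keyAfter N (q + 1) v := by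
  unfold keyAfter
  have h1 : (v' + 1) * 2 ^ q ≤ (v + 1) * 2 ^ (q + 1) := by
    rw [pow_succ]
    calc (v' + 1) * 2 ^ q ≤ (2 * v + 2) * 2 ^ q := Nat.mul_le_mul_right _ (by omega)
      _ = (v + 1) * (2 ^ q * 2) := by ring
  have h2 := Nat.mul_le_mul_left (2 * N + 2) h1
  omega

lemma after_gt {N q v v' : ℕ} (h : 2 * v + 2 ≤ v') : keyAfter N (q + 1) v < keyAfter N q v' := by
  unfold keyAfter
  have hp : 1 ≤ 2 ^ q := Nat.one_le_two_pow
  have h1 : (v + 1) * 2 ^ (q + 1) + 1 ≤ (v' + 1) * 2 ^ q := by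
    rw [pow_succ]
    calc (v + 1) * (2 ^ q * 2) + 1 ≤ (v + 1) * (2 ^ q * 2) + 2 ^ q := by omega
      _ = (2 * v + 2 + 1) * 2 ^ q := by ring
      _ ≤ (v' + 1) * 2 ^ q := Nat.mul_le_mul_right _ (by omega)
  have h2 := Nat.mul_le_mul_left (2 * N + 2) h1
  rw [mul_add] at h2
  omega

lemma before_lt {N q v v' : ℕ} (hq : q + 1 ≤ 2 * N + 1) (h : 2 * v ≤ v') :
    keyBefore N (q + 1) v < keyBefore N q v' := by
  unfold keyBefore
  have h1 : v * 2 ^ (q + 1) ≤ v' * 2 ^ q := by
    rw [pow_succ]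
    calc v * (2 ^ q * 2) = (2 * v) * 2 ^ q := by ring
      _ ≤ v' * 2 ^ q := Nat.mul_le_mul_right _ h
  have h2 := Nat.mul_le_mul_left (2 * N + 2) h1
  omega

lemma before_gt {N q v v' : ℕ} (h : v' + 1 ≤ 2 * v) :
    keyBefore N q v' < keyBefore N (q + 1) v := by
  unfold keyBefore
  have hp : 1 ≤ 2 ^ q := Nat.one_le_two_pow
  have h1 : v' * 2 ^ q + 1 ≤ v * 2 ^ (q + 1) := by
    rw [pow_succ]
    calc v' * 2 ^ q + 1 ≤ v' * 2 ^ q + 2 ^ q := by omega
      _ = (v' + 1) * 2 ^ q := by ring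
      _ ≤ (2 * v) * 2 ^ q := Nat.mul_le_mul_right _ h
      _ = v * (2 ^ q * 2) := by ring
  have h2 := Nat.mul_le_mul_left (2 * N + 2) h1
  rw [mul_add] at h2
  omega

lemma mid_lt {N v v' : ℕ} (h : v' ≤ v) : keyBefore N 0 v' < keyAfter N 0 v := by
  unfold keyBefore keyAfter
  have h2 := Nat.mul_le_mul_left (2 * N + 2) h
  simp only [pow_zero, mul_one, mul_add]
  omega

lemma mid_gt {N v v' : ℕ} (h : v + 1 ≤ v') : keyAfter N 0 v < keyBefore N 0 v' := by
  unfold keyBefore keyAfter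
  have h2 := Nat.mul_le_mul_left (2 * N + 2) h
  simp only [pow_zero, mul_one, mul_add] at h2 ⊢
  omega

lemma div_succ (x q : ℕ) : x / 2 ^ (q + 1) = x / 2 ^ q / 2 := by
  rw [pow_succ, Nat.div_div_eq_div_mul]

/-- case analysis on the step from `t` to `t + 1` -/
lemma step_cases {N t : ℕ} (ht : t < 2 * N + 1) :
    (t < N ∧ ∃ q, sc N t = q + 1 ∧ sc N (t + 1) = q ∧ mx N t = q + 1 ∧ sg N t = 0 ∧
      sg N (t + 1) = 0 ∧ t ≤ N ∧ t + 1 ≤ N ∧ q + 1 ≤ N) ∨
    (t = N ∧ sc N t = 0 ∧ sc N (t + 1) = 0 ∧ mx N t = 0 ∧ sg N t = 0 ∧ sg N (t + 1) = 1) ∨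
    (N < t ∧ ∃ q, sc N t = q ∧ sc N (t + 1) = q + 1 ∧ mx N t = q + 1 ∧ sg N t = 1 ∧
      sg N (t + 1) = 1 ∧ q + 1 ≤ N) := by
  unfold sc mx sg
  rcases lt_trichotomy t N with h | h | h
  · left
    refine ⟨h, N - (t + 1), ?_, ?_, ?_, ?_, ?_, ?_, ?_, ?_⟩
    · rw [if_pos h.le]; omega
    · rw [if_pos (by omega)]
    · rw [if_pos h]; omega
    · rw [if_pos h.le]
    · rw [if_pos (by omega)]
    · omega
    · omega
    · omega
  · right; left
    subst h
    refine ⟨rfl, ?_, ?_, ?_, ?_, ?_⟩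
    · simp
    · simp
    · simp
    · simp
    · simp
  · right; right
    refine ⟨h, t - (N + 1), ?_, ?_, ?_, ?_, ?_, ?_⟩
    · rw [if_neg (by omega)]
    · rw [if_neg (by omega)]; omega
    · rw [if_neg (by omega)]; omega
    · rw [if_neg (by omega)]
    · rw [if_neg (by omega)]
    · omega

/-- the concrete system -/
def conc (N r : ℕ) : Sys (Fin (2 ^ N) × Fin r) (2 * N + 1) where
  bit t i := decide ((i.1.val / 2 ^ sc N t) % 2 = 1)
  z0 t i j := i.1.val / 2 ^ sc N t + sg N t ≤ j.1.val / 2 ^ sc N t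
  z1 t i j := i.1.val / 2 ^ mx N t + sg N (t + 1) ≤ j.1.val / 2 ^ mx N t
  le t i j := i.1.val / 2 ^ mx N t ≤ j.1.val / 2 ^ mx N t
  kR t i := keyR N t i.1.val
  kC t i := keyC N t i.1.val
  Bad i' i j := i'.1 = i.1 ∧ i.1 = j.1
  tb := ⟨N, by omega⟩
  kR_lt := by
    intro t ht i' i h
    rcases step_cases ht with ⟨h0, q, e1, e2, e3, _, _, e4, e5, e6⟩ | ⟨h0, e1, e2, e3, _⟩ |
      ⟨h0, q, e1, e2, e3, _, _, e6⟩
    · simp only [keyR, if_pos e4, if_pos e5, e1, e2]
      rw [e3] at h
      apply after_lt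
      rw [div_succ] at h ⊢
      rw [div_succ] at h
      omega
    · simp only [keyR, if_pos (le_of_eq h0), if_neg (show ¬ t + 1 ≤ N by omega), e1, e2]
      rw [e3] at h
      exact mid_lt h
    · simp only [keyR, if_neg (show ¬ t ≤ N by omega), if_neg (show ¬ t + 1 ≤ N by omega), e1, e2]
      rw [e3] at h
      apply before_lt (by omega)
      rw [div_succ] at h ⊢
      rw [div_succ] at h
      omega
  kR_gt := by
    intro t ht i' i h
    rcases step_cases ht with ⟨h0, q, e1, e2, e3, _, _, e4, e5, e6⟩ | ⟨h0, e1, e2, e3, _⟩ |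
      ⟨h0, q, e1, e2, e3, _, _, e6⟩
    · simp only [keyR, if_pos e4, if_pos e5, e1, e2]
      rw [e3] at h
      apply after_gt
      rw [div_succ] at h ⊢
      rw [div_succ] at h
      omega
    · simp only [keyR, if_pos (le_of_eq h0), if_neg (show ¬ t + 1 ≤ N by omega), e1, e2]
      rw [e3] at h
      exact mid_gt (by omega)
    · simp only [keyR, if_neg (show ¬ t ≤ N by omega), if_neg (show ¬ t + 1 ≤ N by omega), e1, e2]
      rw [e3] at h
      apply before_gt
      rw [div_succ] at h ⊢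
      rw [div_succ] at h
      omega
  kC_lt := by
    intro t ht j j' h
    rcases step_cases ht with ⟨h0, q, e1, e2, e3, _, _, e4, e5, e6⟩ | ⟨h0, e1, e2, e3, _⟩ |
      ⟨h0, q, e1, e2, e3, _, _, e6⟩
    · simp only [keyC, if_pos e4, if_pos e5, e1, e2]
      rw [e3] at h
      apply before_lt (by omega)
      rw [div_succ] at h ⊢
      rw [div_succ] at h
      omega
    · simp only [keyC, if_pos (le_of_eq h0), if_neg (show ¬ t + 1 ≤ N by omega), e1, e2]
      rw [e3] at h
      exact mid_lt h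
    · simp only [keyC, if_neg (show ¬ t ≤ N by omega), if_neg (show ¬ t + 1 ≤ N by omega), e1, e2]
      rw [e3] at h
      apply after_lt
      rw [div_succ] at h ⊢
      rw [div_succ] at h
      omega
  kC_gt := by
    intro t ht j j' h
    rcases step_cases ht with ⟨h0, q, e1, e2, e3, _, _, e4, e5, e6⟩ | ⟨h0, e1, e2, e3, _⟩ |
      ⟨h0, q, e1, e2, e3, _, _, e6⟩
    · simp only [keyC, if_pos e4, if_pos e5, e1, e2]
      rw [e3] at h
      apply before_gt
      rw [div_succ] at h ⊢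
      rw [div_succ] at h
      omega
    · simp only [keyC, if_pos (le_of_eq h0), if_neg (show ¬ t + 1 ≤ N by omega), e1, e2]
      rw [e3] at h
      exact mid_gt (by omega)
    · simp only [keyC, if_neg (show ¬ t ≤ N by omega), if_neg (show ¬ t + 1 ≤ N by omega), e1, e2]
      rw [e3] at h
      apply after_gt
      rw [div_succ] at h ⊢
      rw [div_succ] at h
      omega
  tr := by
    intro t ht i' i j hle hbit h0 h1
    simp only [decide_eq_decide] at hbit
    rcases step_cases ht with ⟨h, q, e1, e2, e3, e4, e5, _⟩ | ⟨h, e1, e2, e3, e4, e5⟩ |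
      ⟨h, q, e1, e2, e3, e4, e5, e6⟩
    · rw [e1, e4] at h0
      rw [e3, e5] at h1
      rw [e3] at hle
      omega
    · rw [e1, e4] at h0
      rw [e3, e5] at h1
      rw [e3] at hle
      simp only [pow_zero, Nat.div_one] at h0 h1 hle
      exact ⟨h, Fin.ext (by omega), Fin.ext (by omega)⟩
    · rw [e1, e4] at h0
      rw [e1] at hbit
      rw [e3, e5, div_succ, div_succ] at h1
      rw [e3, div_succ, div_succ] at hle
      omega
  tr' := by
    intro t ht i' i j hle hbit h1
    simp only [decide_eq_decide] at hbit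
    rcases step_cases ht with ⟨h, q, e1, e2, e3, e4, e5, _⟩ | ⟨h, e1, e2, e3, e4, e5⟩ |
      ⟨h, q, e1, e2, e3, e4, e5, e6⟩
    · rw [e1, e4]
      rw [e3, e5] at h1
      rw [e3] at hle
      omega
    · rw [e1, e4]
      rw [e3, e5] at h1
      rw [e3] at hle
      omega
    · rw [e1, e4]
      rw [e1] at hbit
      rw [e3, e5, div_succ, div_succ] at h1
      rw [e3, div_succ, div_succ] at hle
      omega
  tc := by
    intro t ht i j j' hle hbit h1
    simp only [decide_eq_decide] at hbit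
    rcases step_cases ht with ⟨h, q, e1, e2, e3, e4, e5, _⟩ | ⟨h, e1, e2, e3, e4, e5⟩ |
      ⟨h, q, e1, e2, e3, e4, e5, e6⟩
    · rw [e2, e5]
      rw [e2] at hbit
      rw [e3, e5, div_succ, div_succ] at h1
      rw [e3, div_succ, div_succ] at hle
      omega
    · rw [e2, e5]
      rw [e3, e5] at h1
      rw [e3] at hle
      omega
    · rw [e2, e5]
      rw [e3, e5] at h1
      rw [e3] at hle
      omega
  tc' := by
    intro t ht i j j' hle hbit h1
    simp only [decide_eq_decide] at hbit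
    rcases step_cases ht with ⟨h, q, e1, e2, e3, e4, e5, _⟩ | ⟨h, e1, e2, e3, e4, e5⟩ |
      ⟨h, q, e1, e2, e3, e4, e5, e6⟩
    · rw [e3, e5, div_succ, div_succ]
      rw [e2, e5] at h1
      rw [e3, div_succ, div_succ] at hle
      omega
    · rw [e3, e5]
      rw [e2, e5] at h1
      rw [e3] at hle
      omega
    · rw [e3, e5]
      rw [e2, e5] at h1
      rw [e3] at hle
      omega
  nest0 := by
    intro t i1 i2 j1 j2 h1 h2
    omega
  nest1 := by
    intro t i1 i2 j1 j2 h1 h2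
    omega
  z0_first := by
    intro i j
    have hs : sc N 0 = N := by simp [sc]
    have hg : sg N 0 = 0 := by simp [sg]
    rw [hs, hg, Nat.div_eq_of_lt i.1.isLt]
    exact Nat.zero_le _
  z0_last := by
    intro i j
    have hs : sc N (2 * N + 1) = N := by unfold sc; rw [if_neg (by omega)]; omega
    have hg : sg N (2 * N + 1) = 1 := by unfold sg; rw [if_neg (by omega)]
    rw [hs, hg, Nat.div_eq_of_lt i.1.isLt, Nat.div_eq_of_lt j.1.isLt]
    omega
  bit_first := by
    intro i j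
    have hs : sc N 0 = N := by simp [sc]
    rw [hs, Nat.div_eq_of_lt i.1.isLt, Nat.div_eq_of_lt j.1.isLt]
  bit_last := by
    intro i j
    have hs : sc N (2 * N + 1) = N := by unfold sc; rw [if_neg (by omega)]; omega
    rw [hs, Nat.div_eq_of_lt i.1.isLt, Nat.div_eq_of_lt j.1.isLt]
  le_first := by
    intro i j
    have hs : mx N 0 = N := by
      unfold mx
      split_ifs with h
      · omega
      · omega
    rw [hs, Nat.div_eq_of_lt i.1.isLt]
    exact Nat.zero_le _
  le_last := by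
    intro t ht i j
    have hs : mx N t = N := by
      unfold mx
      rw [if_neg (by omega)]
      omega
    rw [hs, Nat.div_eq_of_lt i.1.isLt]
    exact Nat.zero_le _
  le_self := by
    intro t i
    exact le_refl _

end Vale.Agent.P037.Cx
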