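import Vale.Agent.Lib.P037.Cx.GadgetC

/-!
Every matrix close to the block matrix contains a copy of the complement of the identity.
-/

namespace Vale.Agent.P037.Cx

open Finset

variable {I : Type} {M k : ℕ}

lemma good_triple [Fintype I] [Nonempty I] (bad : I → I → Prop) [∀ p q, Decidable (bad p q)]
    (D : ℕ) (h : (univ.filter fun z : I × I => bad z.1 z.2).card ≤ D)
    (hD : 3 * D < Fintype.card I ^ 2) :
    ∃ w w' τ, ¬ bad w' w ∧ ¬ bad w τ ∧ ¬ bad w' τ := by
  classical
  by_contra hcon
  push Not at hcon
  set P := univ.filter fun z : I × I => bad z.1 z.2 with hP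
  have hmem : ∀ p q, bad p q → (p, q) ∈ P := fun p q h => by simp [hP, h]
  let T1 := univ.filter fun z : I × I × I => bad z.2.1 z.1
  let T2 := univ.filter fun z : I × I × I => bad z.1 z.2.2
  let T3 := univ.filter fun z : I × I × I => bad z.2.1 z.2.2
  have c1 : T1.card ≤ (P ×ˢ (univ : Finset I)).card := by
    apply Finset.card_le_card_of_injOn (fun z : I × I × I => ((z.2.1, z.1), z.2.2))
    · intro z hz
      have : bad z.2.1 z.1 := by simpa [T1] using hz
      simp only [Finset.coe_product, Set.mem_prod, Finset.mem_coe]
      exact ⟨hmem _ _ this, Finset.mem_univ _⟩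
    · rintro ⟨a, b, c⟩ _ ⟨a', b', c'⟩ _ h
      simp only [Prod.mk.injEq] at h ⊢
      tauto
  have c2 : T2.card ≤ (P ×ˢ (univ : Finset I)).card := by
    apply Finset.card_le_card_of_injOn (fun z : I × I × I => ((z.1, z.2.2), z.2.1))
    · intro z hz
      have : bad z.1 z.2.2 := by simpa [T2] using hz
      simp only [Finset.coe_product, Set.mem_prod, Finset.mem_coe]
      exact ⟨hmem _ _ this, Finset.mem_univ _⟩
    · rintro ⟨a, b, c⟩ _ ⟨a', b', c'⟩ _ h
      simp only [Prod.mk.injEq] at h ⊢
      tauto
  have c3 : T3.card ≤ (P ×ˢ (univ : Finset I)).card := by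
    apply Finset.card_le_card_of_injOn (fun z : I × I × I => ((z.2.1, z.2.2), z.1))
    · intro z hz
      have : bad z.2.1 z.2.2 := by simpa [T3] using hz
      simp only [Finset.coe_product, Set.mem_prod, Finset.mem_coe]
      exact ⟨hmem _ _ this, Finset.mem_univ _⟩
    · rintro ⟨a, b, c⟩ _ ⟨a', b', c'⟩ _ h
      simp only [Prod.mk.injEq] at h ⊢
      tauto
  have hcover : (univ : Finset (I × I × I)) ⊆ T1 ∪ (T2 ∪ T3) := by
    rintro ⟨w, w', τ⟩ _
    simp only [Finset.mem_union, T1, T2, T3, Finset.mem_filter, Finset.mem_univ, true_and]
    by_cases h1 : bad w' w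
    · exact Or.inl h1
    · by_cases h2 : bad w τ
      · exact Or.inr (Or.inl h2)
      · exact Or.inr (Or.inr (hcon w w' τ h1 h2))
  have hcard := Finset.card_le_card hcover
  have hu1 := Finset.card_union_le T1 (T2 ∪ T3)
  have hu2 := Finset.card_union_le T2 T3
  rw [Finset.card_univ, Fintype.card_prod, Fintype.card_prod] at hcard
  have hPc : (P ×ˢ (univ : Finset I)).card = P.card * Fintype.card I := by
    rw [Finset.card_product, Finset.card_univ]
  rw [hPc] at c1 c2 c3
  have hs : 0 < Fintype.card I := Fintype.card_pos
  have h5 : P.card * Fintype.card I ≤ D * Fintype.card I := Nat.mul_le_mul_right _ h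
  have h6 : Fintype.card I * (Fintype.card I * Fintype.card I) ≤ 3 * D * Fintype.card I := by
    nlinarith
  have h7 : Fintype.card I * Fintype.card I ≤ 3 * D := by
    have h8 : Fintype.card I * (Fintype.card I * Fintype.card I) ≤
        Fintype.card I * (3 * D) := by linarith
    exact Nat.le_of_mul_le_mul_left h8 hs
  nlinarith

section chain

variable (S : Sys I M) (B : Cls M k × I → Cls M k × I → Prop)

/-- `B` has an ordered copy of the complement of the identity -/
def HasCopy : Prop := ∃ R C : Fin k → Cls M k × I, (∀ a a', B (R a) (C a') ↔ a ≠ a') ∧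
  (∀ a a', a < a' → fR S (R a) < fR S (R a')) ∧ (∀ a a', a < a' → fC S (C a) < fC S (C a'))

/-- agreement of `B` with the block matrix on all pairs with the given indices -/
def Agr (p q : I) : Prop := ∀ c d : Cls M k, ent S (c, p) (d, q) ↔ B (c, p) (d, q)

lemma step_R (U : Fin M) (w w' τ x x' : I) (h1 : Agr S B w' w)
    (h2 : Agr S B w' τ) (h3 : Agr S B x τ) (h4 : Agr S B x' τ)
    (hbit : S.bit U x = S.bit U w) (hle : S.le U x' x) (hno : ¬ HasCopy S B)
    (hB : B (.main U.castSucc, x) (.main U.castSucc, w)) :
    B (.main U.succ, x') (.main U.castSucc, w) := by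
  by_contra hB'
  apply hno
  let b := S.bit U w
  refine ⟨fun p => if p.val = 0 then (.main U.succ, x') else
      if p.val = 1 then (.main U.castSucc, x) else (.rt U b p, w'),
    fun q => if q.val = 0 then (.main U.castSucc, w) else (.rt U b q, τ), ?_, ?_, ?_⟩
  · intro p q
    by_cases hp0 : p.val = 0
    · simp only [hp0, if_true]
      by_cases hq0 : q.val = 0
      · simp only [hq0, if_true]
        have : p = q := Fin.ext (by omega)
        simp only [this, ne_eq, not_true_eq_false, iff_false]
        exact hB'
      · simp only [hq0, if_false]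
        rw [← h4]
        simp only [ent, Fin.val_succ]
        refine iff_of_true ⟨hq0, Or.inl trivial⟩ ?_
        intro h; rw [h] at hp0; exact hq0 hp0
    · by_cases hp1 : p.val = 1
      · simp only [hp1, if_true, one_ne_zero, if_false]
        by_cases hq0 : q.val = 0
        · simp only [hq0, if_true]
          refine iff_of_true hB ?_
          intro h; rw [h] at hp1; omega
        · simp only [hq0, if_false]
          rw [← h3]
          simp only [ent, Fin.val_castSucc]
          constructor
          · rintro ⟨_, h | ⟨_, _, h⟩⟩
            · omega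
            · intro e; rw [e] at hp1; exact h hp1
          · intro h
            refine ⟨hq0, Or.inr ⟨trivial, hbit, ?_⟩⟩
            intro e; exact h (Fin.ext (by omega))
      · simp only [hp0, hp1, if_false]
        by_cases hq0 : q.val = 0
        · simp only [hq0, if_true]
          rw [← h1]
          simp only [ent, Fin.val_castSucc]
          refine iff_of_true ⟨by omega, trivial, rfl⟩ ?_
          intro h; rw [h] at hp0; exact hp0 hq0
        · simp only [hq0, if_false]
          rw [← h2]
          simp only [ent]
          constructor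
          · rintro ⟨_, _, _, _, h⟩; exact h
          · intro h; exact ⟨trivial, trivial, by omega, by omega, h⟩
  · intro p p' hpp
    rw [Fin.lt_def] at hpp
    by_cases hp0 : p.val = 0
    · have hp0' : p'.val ≠ 0 := by omega
      simp only [hp0, if_true, hp0', if_false]
      by_cases hp1 : p'.val = 1
      · simp only [hp1, if_true]
        simp only [fR, Prod.Lex.toLex_lt_toLex, Fin.val_succ, Fin.val_castSucc]
        right
        exact ⟨trivial, S.kR_lt U U.isLt x' x hle⟩
      · simp only [hp1, if_false]
        simp only [fR, Prod.Lex.toLex_lt_toLex]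
        left; norm_num
    · have hp0' : p'.val ≠ 0 := by omega
      have hp1' : p'.val ≠ 1 := by omega
      simp only [hp0, hp0', hp1', if_false]
      by_cases hp1 : p.val = 1
      · simp only [hp1, if_true]
        simp only [fR, Prod.Lex.toLex_lt_toLex]
        left; norm_num
      · simp only [hp1, if_false]
        simp only [fR, Prod.Lex.toLex_lt_toLex]
        right; exact ⟨trivial, hpp⟩
  · intro q q' hqq
    rw [Fin.lt_def] at hqq
    have hq0' : q'.val ≠ 0 := by omega
    simp only [hq0', if_false]
    by_cases hq0 : q.val = 0
    · simp only [hq0, if_true]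
      simp only [fC, Prod.Lex.toLex_lt_toLex]
      left; norm_num
    · simp only [hq0, if_false]
      simp only [fC, Prod.Lex.toLex_lt_toLex]
      right; exact ⟨trivial, hqq⟩

lemma step_C (U : Fin M) (w w' τ x : I) (h1 : Agr S B w' w)
    (h2 : Agr S B w' τ) (h3 : Agr S B x τ)
    (hbit : S.bit (U + 1) x = S.bit (U + 1) w) (hno : ¬ HasCopy S B)
    (hB : B (.main U.succ, x) (.main U.castSucc, w)) :
    B (.main U.succ, x) (.main U.succ, w) := by
  by_contra hB'
  apply hno
  let b := S.bit (U + 1) w
  refine ⟨fun p => if p.val + 1 = k then (.main U.succ, x) else (.ct U b p, w'),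
    fun q => if q.val + 1 = k then (.main U.succ, w) else
      if q.val + 2 = k then (.main U.castSucc, w) else (.ct U b q, τ), ?_, ?_, ?_⟩
  · intro p q
    have hpk := p.isLt
    have hqk := q.isLt
    by_cases hp : p.val + 1 = k
    · simp only [hp, if_true]
      by_cases hq1 : q.val + 1 = k
      · simp only [hq1, if_true]
        have : p = q := Fin.ext (by omega)
        simp only [this, ne_eq, not_true_eq_false, iff_false]
        exact hB'
      · by_cases hq2 : q.val + 2 = k
        · simp only [hq1, hq2, if_true, if_false]
          refine iff_of_true hB ?_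
          intro h; rw [h] at hp; exact hq1 hp
        · simp only [hq1, hq2, if_false]
          rw [← h3]
          simp only [ent, Fin.val_succ]
          refine iff_of_true ⟨by omega, trivial, hbit⟩ ?_
          intro h; rw [h] at hp; exact hq1 hp
    · simp only [hp, if_false]
      by_cases hq1 : q.val + 1 = k
      · simp only [hq1, if_true]
        rw [← h1]
        simp only [ent, Fin.val_succ]
        refine iff_of_true ⟨by omega, Or.inr ⟨trivial, rfl⟩⟩ ?_
        intro h; rw [h] at hp; exact hp hq1
      · by_cases hq2 : q.val + 2 = k
        · simp only [hq1, hq2, if_true, if_false]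
          rw [← h1]
          simp only [ent, Fin.val_castSucc]
          constructor
          · rintro ⟨_, ⟨_, h⟩ | ⟨h, _⟩⟩
            · intro e; rw [e] at h; omega
            · omega
          · intro h
            refine ⟨by omega, Or.inl ⟨trivial, ?_⟩⟩
            have : p.val ≠ q.val := fun e => h (Fin.ext e)
            omega
        · simp only [hq1, hq2, if_false]
          rw [← h2]
          simp only [ent]
          constructor
          · rintro ⟨_, _, _, _, h⟩; exact h
          · intro h; exact ⟨trivial, trivial, by omega, by omega, h⟩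
  · intro p p' hpp
    rw [Fin.lt_def] at hpp
    have hp'k := p'.isLt
    have hp : ¬ p.val + 1 = k := by omega
    simp only [hp, if_false]
    by_cases hp' : p'.val + 1 = k
    · simp only [hp', if_true]
      simp only [fR, Prod.Lex.toLex_lt_toLex]
      left; norm_num
    · simp only [hp', if_false]
      simp only [fR, Prod.Lex.toLex_lt_toLex]
      right; exact ⟨trivial, hpp⟩
  · intro q q' hqq
    rw [Fin.lt_def] at hqq
    have hq'k := q'.isLt
    have hq1 : ¬ q.val + 1 = k := by omega
    simp only [hq1, if_false]
    by_cases hq2 : q.val + 2 = k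
    · have hq1' : q'.val + 1 = k := by omega
      simp only [hq2, hq1', if_true]
      simp only [fC, Prod.Lex.toLex_lt_toLex, Fin.val_succ, Fin.val_castSucc]
      right
      exact ⟨trivial, S.kC_lt U U.isLt w w (S.le_self _ _)⟩
    · simp only [hq2, if_false]
      by_cases hq1' : q'.val + 1 = k
      · simp only [hq1', if_true]
        simp only [fC, Prod.Lex.toLex_lt_toLex]
        left; norm_num
      · by_cases hq2' : q'.val + 2 = k
        · simp only [hq1', hq2', if_true, if_false]
          simp only [fC, Prod.Lex.toLex_lt_toLex]
          left; norm_num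
        · simp only [hq1', hq2', if_false]
          simp only [fC, Prod.Lex.toLex_lt_toLex]
          right; exact ⟨trivial, hqq⟩

/-- a matrix with few changes contains a copy -/
theorem has_copy [Fintype I] [Nonempty I]
    (T : Finset ((Cls M k × I) × (Cls M k × I)))
    (hT : ∀ z : (Cls M k × I) × (Cls M k × I), ¬ (ent S z.1 z.2 ↔ B z.1 z.2) → z ∈ T)
    (hTD : 3 * T.card < Fintype.card I ^ 2) : HasCopy S B := by
  classical
  have hpairs : (univ.filter fun z : I × I => ¬ Agr S B z.1 z.2).card ≤ T.card := by
    calc (univ.filter fun z : I × I => ¬ Agr S B z.1 z.2).card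
        ≤ (T.image fun z => (z.1.2, z.2.2)).card := by
          apply Finset.card_le_card
          rintro ⟨p, q⟩ hz
          have hz' : ¬ Agr S B p q := by simpa using hz
          unfold Agr at hz'
          push Not at hz'
          obtain ⟨c, d, hcd⟩ := hz'
          rw [Finset.mem_image]
          refine ⟨((c, p), (d, q)), ?_, rfl⟩
          apply hT
          intro hiff
          rcases hcd with ⟨h1, h2⟩ | ⟨h1, h2⟩
          · exact h2 (hiff.mp h1)
          · exact h1 (hiff.mpr h2)
      _ ≤ T.card := Finset.card_image_le
  obtain ⟨w, w', τ, g1, g2, g3⟩ := good_triple (fun p q => ¬ Agr S B p q) T.card hpairs hTD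
  rw [not_not] at g1 g2 g3
  by_contra hno
  let idx : ℕ → I := fun t => if t = 0 ∨ t = M then w' else w
  have hidx : ∀ t, idx t = w' ∨ idx t = w := by
    intro t; simp only [idx]; split_ifs <;> simp
  have hAgr : ∀ t, Agr S B (idx t) τ := by
    intro t
    rcases hidx t with h | h <;> rw [h]
    · exact g3
    · exact g2
  have hM : 0 < M := lt_of_le_of_lt (Nat.zero_le _) S.tb.isLt
  have hbit : ∀ t, S.bit t (idx t) = S.bit t w := by
    intro t
    simp only [idx]
    split_ifs with h
    · rcases h with h | h
      · rw [h]; exact S.bit_first _ _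
      · rw [h]; exact S.bit_last _ _
    · rfl
  have hchain : ∀ t (ht : t < M + 1), B (.main ⟨t, ht⟩, idx t) (.main ⟨t, ht⟩, w) := by
    intro t
    induction t with
    | zero =>
      intro ht
      have h0 : idx 0 = w' := by simp [idx]
      rw [h0, ← g1]
      simp only [ent]
      exact Or.inl ⟨trivial, S.bit_first _ _, S.z0_first _ _⟩
    | succ t ih =>
      intro ht
      have htM : t < M := by omega
      have ih' := ih (by omega)
      have hle : S.le t (idx (t + 1)) (idx t) := by
        by_cases h0 : t = 0
        · rw [h0]; exact S.le_first _ _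
        by_cases hl : t + 1 = M
        · exact S.le_last t hl _ _
        · have e1 : idx t = w := by
            simp only [idx]
            rw [if_neg]
            push Not
            exact ⟨h0, by omega⟩
          have e2 : idx (t + 1) = w := by
            simp only [idx]
            rw [if_neg]
            push Not
            exact ⟨by omega, hl⟩
          rw [e1, e2]
          exact S.le_self _ _
      have s1 := step_R S B ⟨t, htM⟩ w w' τ (idx t) (idx (t + 1)) g1 g3 (hAgr t)
        (hAgr (t + 1)) (hbit t) hle hno ih'
      exact step_C S B ⟨t, htM⟩ w w' τ (idx (t + 1)) g1 g3 (hAgr (t + 1)) (hbit (t + 1)) hno s1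
  have hlast := hchain M (by omega)
  have hM' : idx M = w' := by simp [idx]
  rw [hM', ← g1] at hlast
  simp only [ent] at hlast
  rcases hlast with ⟨_, _, h⟩ | ⟨h, _⟩
  · exact S.z0_last _ _ h
  · omega

end chain

end Vale.Agent.P037.Cx
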