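import Vale.Agent.Lib.P037.Defs
import Vale.Agent.Lib.P037.Prob
import Vale.Agent.Lib.P037.Cx.Far
import Vale.Agent.Lib.P037.Cx.Conc

/-!
Transfer of the block matrix to `n × n` matrices, and the two estimates.
-/

namespace Vale.Agent.P037.Cx

open Finset

/-- sorting a finite type by a function -/
lemma exists_sort {α L : Type} [Fintype α] [LinearOrder L] (f : α → L) {n : ℕ}
    (h : Fintype.card α = n) : ∃ e : α ≃ Fin n, ∀ x y, f x < f y → e x < e y := by
  classical
  let e0 : α ≃ Fin n := Fintype.equivFinOfCardEq h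
  let g : α → L ×ₗ Fin n := fun x => toLex (f x, e0 x)
  have hg : Function.Injective g := by
    intro x y hxy
    have h1 : (f x, e0 x) = (f y, e0 y) := toLex.injective hxy
    exact e0.injective (Prod.ext_iff.mp h1).2
  let _ : LinearOrder α := LinearOrder.lift' g hg
  let φ := monoEquivOfFin α h
  refine ⟨φ.symm.toEquiv, fun x y hxy => ?_⟩
  have hlt : x < y := by
    show g x < g y
    simp only [g, Prod.Lex.toLex_lt_toLex]
    exact Or.inl hxy
  exact φ.symm.strictMono hlt

/-- the complement of the identity matrix -/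
def coId (k : ℕ) : Matrix (Fin k) (Fin k) Bool := fun i j => decide (i ≠ j)

/-- the number of classes -/
def Tn (k N : ℕ) : ℕ := (2 * N + 1 + 1) + 2 * ((2 * N + 1) * (2 * k))

lemma card_bad (N r : ℕ) :
    Fintype.card {z : (Fin (2 ^ N) × Fin r) × (Fin (2 ^ N) × Fin r) × (Fin (2 ^ N) × Fin r) //
      z.1.1 = z.2.1.1 ∧ z.2.1.1 = z.2.2.1} ≤ 2 ^ N * r ^ 3 := by
  classical
  have h : Fintype.card (Fin (2 ^ N) × Fin r × Fin r × Fin r) = 2 ^ N * r ^ 3 := by
    simp only [Fintype.card_prod, Fintype.card_fin]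
    ring
  rw [← h]
  apply Fintype.card_le_of_injective
    (fun z => (z.1.1.1, z.1.1.2, z.1.2.1.2, z.1.2.2.2))
  rintro ⟨⟨⟨a1, a2⟩, ⟨b1, b2⟩, ⟨c1, c2⟩⟩, h1, h2⟩ ⟨⟨⟨a1', a2'⟩, ⟨b1', b2'⟩, ⟨c1', c2'⟩⟩, h1', h2'⟩ heq
  simp only [Prod.mk.injEq, Subtype.mk.injEq] at heq h1 h2 h1' h2' ⊢
  obtain ⟨e1, e2, e3, e4⟩ := heq
  subst h1 h2 h1' h2' e1 e2 e3 e4
  simp

theorem construction (k : ℕ) (hk : 13 ≤ k) (N r n : ℕ) (hr : 1 ≤ r)
    (hn : n = Tn k N * (2 ^ N * r)) :
    ∃ A : Matrix (Fin n) (Fin n) Bool,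
      (∀ B : Matrix (Fin n) (Fin n) Bool, IsFree (coId k) B →
        (2 ^ N * r) ^ 2 ≤ 3 * diffCount A B) ∧
      (copyCount (coId k) A : ℝ) ≤ ((2 ^ N * r ^ 3 : ℕ) : ℝ) / (n : ℝ) ^ 3 * (n : ℝ) ^ (2 * k) := by
  classical
  let I := Fin (2 ^ N) × Fin r
  let M := 2 * N + 1
  let S : Sys I M := conc N r
  have hIcard : Fintype.card I = 2 ^ N * r := by simp [I]
  have hXcard : Fintype.card (Cls M k × I) = n := by
    rw [Fintype.card_prod, card_cls, hIcard, hn]
    rfl
  have hIpos : 0 < 2 ^ N * r := by positivity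
  have hTpos : 0 < Tn k N := by unfold Tn; omega
  have hnpos : 0 < n := by rw [hn]; positivity
  have : Nonempty I := by
    rw [← Fintype.card_pos_iff, hIcard]; exact hIpos
  obtain ⟨eR, heR⟩ := exists_sort (fR S : Cls M k × I → ℕ ×ₗ ℕ) hXcard
  obtain ⟨eC, heC⟩ := exists_sort (fC S : Cls M k × I → ℕ ×ₗ ℕ) hXcard
  let A : Matrix (Fin n) (Fin n) Bool := fun a b => decide (ent S (eR.symm a) (eC.symm b))
  have hA : ∀ x y, A (eR x) (eC y) = true ↔ ent S x y := by
    intro x y
    simp [A]
  refine ⟨A, ?_, ?_⟩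
  · -- far from free
    intro B hB
    by_contra hlt
    push Not at hlt
    let B' : Cls M k × I → Cls M k × I → Prop := fun x y => B (eR x) (eC y) = true
    let T : Finset ((Cls M k × I) × (Cls M k × I)) :=
      univ.filter fun z => ¬ (ent S z.1 z.2 ↔ B' z.1 z.2)
    have hTcard : T.card = diffCount A B := by
      unfold diffCount
      rw [Nat.card_eq_fintype_card, Fintype.card_subtype]
      apply Finset.card_bij (fun z _ => (eR z.1, eC z.2))
      · intro z hz
        simp only [T, Finset.mem_filter, Finset.mem_univ, true_and] at hz ⊢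
        intro heq
        apply hz
        rw [← hA]
        show _ ↔ B (eR z.1) (eC z.2) = true
        rw [heq]
      · intro z _ z' _ h
        simp only [Prod.mk.injEq, EmbeddingLike.apply_eq_iff_eq] at h
        exact Prod.ext h.1 h.2
      · rintro ⟨a, b⟩ hab
        refine ⟨(eR.symm a, eC.symm b), ?_, by simp⟩
        simp only [T, Finset.mem_filter, Finset.mem_univ, true_and] at hab ⊢
        intro hiff
        apply hab
        rw [← hA] at hiff
        simp only [B', Equiv.apply_symm_apply] at hiff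
        exact Bool.eq_iff_iff.mpr hiff
    have hcopy : HasCopy (k := k) S B' := by
      apply has_copy S B' T
      · intro z hz
        simp only [T, Finset.mem_filter, Finset.mem_univ, true_and]
        exact hz
      · rw [hTcard, hIcard]
        exact hlt
    obtain ⟨R, C, hE, hR, hC⟩ := hcopy
    unfold IsFree copyCount at hB
    rw [Nat.card_eq_zero] at hB
    rcases hB with hB | hB
    · refine hB.false ⟨(fun a => eR (R a), fun a => eC (C a)), ?_, ?_, ?_⟩
      · intro a a' haa
        exact heR _ _ (hR a a' haa)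
      · intro a a' haa
        exact heC _ _ (hC a a' haa)
      · intro a a'
        have := hE a a'
        simp only [B'] at this
        simp only [coId]
        rw [Bool.eq_iff_iff, this]
        simp
    · exact hB.not_finite inferInstance
  · -- few copies
    have : Nonempty (Fin n) := ⟨⟨0, hnpos⟩⟩
    let a0 : Fin k := ⟨0, by omega⟩
    let a1 : Fin k := ⟨1, by omega⟩
    let BadT : Type := {z : I × I × I // z.1.1 = z.2.1.1 ∧ z.2.1.1 = z.2.2.1}
    let Q : (Fin 2 → Fin n) → (Fin 1 → Fin n) → Prop := fun z w =>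
      ∃ v : BadT, z 0 = eR (.main S.tb.succ, v.1.1) ∧ z 1 = eR (.main S.tb.castSucc, v.1.2.1) ∧
        w 0 = eC (.main S.tb.castSucc, v.1.2.2)
    have hsub : ∀ p : (Fin k → Fin n) × (Fin k → Fin n), IsCopy (coId k) A p →
        Q (fun i => p.1 (![a0, a1] i)) (fun i => p.2 (![a0] i)) := by
      rintro ⟨p1, p2⟩ ⟨h1, h2, h3⟩
      simp only at h1 h2 h3
      have hE : ∀ a a', ent S (eR.symm (p1 a)) (eC.symm (p2 a')) ↔ a ≠ a' := by
        intro a a'
        have := h3 a a'
        simp only [A, coId] at this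
        rw [decide_eq_decide] at this
        exact this
      obtain ⟨i', i, j, hbad, e1, e2, e3⟩ := copy_bad S (fun a => eR.symm (p1 a))
        (fun a => eC.symm (p2 a)) hk hE
        (by
          intro a a' haa
          by_contra hcon
          rw [not_le] at hcon
          have := heR _ _ hcon
          simp only [Equiv.apply_symm_apply] at this
          exact absurd (h1 haa) (not_lt.mpr this.le))
        (by
          intro a a' haa
          by_contra hcon
          rw [not_le] at hcon
          have := heC _ _ hcon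
          simp only [Equiv.apply_symm_apply] at this
          exact absurd (h2 haa) (not_lt.mpr this.le))
      refine ⟨⟨(i', i, j), hbad⟩, ?_, ?_, ?_⟩
      · simp only [Matrix.cons_val_zero]
        exact (Equiv.symm_apply_eq eR).mp e1
      · simp only [Matrix.cons_val_one]
        exact (Equiv.symm_apply_eq eR).mp e2
      · simp only [Matrix.cons_val_fin_one]
        exact (Equiv.symm_apply_eq eC).mp e3
    have hcount : (copyCount (coId k) A : ℝ) =
        pr (fun p : (Fin k → Fin n) × (Fin k → Fin n) => IsCopy (coId k) A p) *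
          (n : ℝ) ^ (2 * k) := by
      unfold copyCount
      rw [pr_eq, Nat.card_eq_fintype_card, Fintype.card_subtype]
      have hn0 : (n : ℝ) ≠ 0 := by exact_mod_cast hnpos.ne'
      simp only [Fintype.card_prod, Fintype.card_fun, Fintype.card_fin]
      push_cast
      rw [two_mul, pow_add]
      field_simp
    have hinj : Function.Injective ![a0, a1] := by
      intro i j hij
      fin_cases i <;> fin_cases j
      · rfl
      · simp [a0, a1] at hij
      · simp [a0, a1] at hij
      · rfl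
    have hpr : pr (fun p : (Fin k → Fin n) × (Fin k → Fin n) => IsCopy (coId k) A p) ≤
        ((2 ^ N * r ^ 3 : ℕ) : ℝ) / (n : ℝ) ^ 3 := by
      calc pr (fun p : (Fin k → Fin n) × (Fin k → Fin n) => IsCopy (coId k) A p)
          ≤ pr (fun p : (Fin k → Fin n) × (Fin k → Fin n) =>
            Q (fun i => p.1 (![a0, a1] i)) (fun i => p.2 (![a0] i))) := pr_mono hsub
        _ = pr (fun p : (Fin 2 → Fin n) × (Fin 1 → Fin n) => Q p.1 p.2) :=
            pr_comp_inj₂ ![a0, a1] hinj ![a0] (Function.injective_of_subsingleton _) Q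
        _ ≤ ((2 ^ N * r ^ 3 : ℕ) : ℝ) / (n : ℝ) ^ 3 := by
            rw [pr_eq]
            have hden : (Fintype.card ((Fin 2 → Fin n) × (Fin 1 → Fin n)) : ℝ) = (n : ℝ) ^ 3 := by
              simp only [Fintype.card_prod, Fintype.card_fun, Fintype.card_fin]
              push_cast
              ring
            rw [hden]
            gcongr
            have h1 : (univ.filter fun p : (Fin 2 → Fin n) × (Fin 1 → Fin n) => Q p.1 p.2) ⊆
                (univ : Finset BadT).image fun v =>
                  ((![eR (.main S.tb.succ, v.1.1), eR (.main S.tb.castSucc, v.1.2.1)],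
                    ![eC (.main S.tb.castSucc, v.1.2.2)]) :
                    (Fin 2 → Fin n) × (Fin 1 → Fin n)) := by
              rintro ⟨z, w⟩ hzw
              simp only [Finset.mem_filter, Finset.mem_univ, true_and] at hzw
              obtain ⟨v, e1, e2, e3⟩ := hzw
              rw [Finset.mem_image]
              refine ⟨v, Finset.mem_univ _, ?_⟩
              ext i
              · fin_cases i
                · simp [e1]
                · simp [e2]
              · fin_cases i
                simp [e3]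
            refine (Finset.card_le_card h1).trans (Finset.card_image_le.trans ?_)
            rw [Finset.card_univ]
            exact card_bad N r
    rw [hcount]
    gcongr

/-- the two estimates in terms of `freeDist` -/
theorem construction' (k : ℕ) (hk : 13 ≤ k) (N r n : ℕ) (hr : 1 ≤ r)
    (hn : n = Tn k N * (2 ^ N * r)) :
    ∃ A : Matrix (Fin n) (Fin n) Bool,
      1 / (3 * (Tn k N : ℝ) ^ 2) ≤ freeDist (coId k) A ∧
      (copyCount (coId k) A : ℝ) ≤ (1 / 4) ^ N * (n : ℝ) ^ (2 * k) := by
  obtain ⟨A, h1, h2⟩ := construction k hk N r n hr hn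
  have hTpos : 0 < Tn k N := by unfold Tn; omega
  have hIpos : 0 < 2 ^ N * r := by positivity
  have hnpos : 0 < n := by rw [hn]; positivity
  have hnR : (n : ℝ) = (Tn k N : ℝ) * (2 ^ N * (r : ℝ)) := by rw [hn]; push_cast; ring
  have hTR : (0 : ℝ) < Tn k N := by exact_mod_cast hTpos
  have hTR1 : (1 : ℝ) ≤ Tn k N := by exact_mod_cast hTpos
  have hrR : (0 : ℝ) < r := by exact_mod_cast hr
  refine ⟨A, ?_, ?_⟩
  · have hne : {m : ℕ | ∃ B : Matrix (Fin n) (Fin n) Bool,
        IsFree (coId k) B ∧ diffCount A B = m}.Nonempty := by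
      refine ⟨diffCount A (fun _ _ => false), fun _ _ => false, ?_, rfl⟩
      unfold IsFree copyCount
      rw [Nat.card_eq_zero]
      left
      refine ⟨fun p => ?_⟩
      obtain ⟨p, _, _, hp⟩ := p
      have := hp ⟨0, by omega⟩ ⟨1, by omega⟩
      simp [coId] at this
    obtain ⟨B, hB, hm⟩ := Nat.sInf_mem hne
    have h3 := h1 B hB
    unfold freeDist
    rw [← hm]
    have h4 : ((2 : ℝ) ^ N * r) ^ 2 ≤ 3 * (diffCount A B : ℝ) := by exact_mod_cast h3
    rw [div_le_div_iff₀ (by positivity) (by positivity), one_mul, hnR]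
    calc ((Tn k N : ℝ) * (2 ^ N * (r : ℝ))) ^ 2 = (Tn k N : ℝ) ^ 2 * ((2 : ℝ) ^ N * r) ^ 2 := by
          ring
      _ ≤ (Tn k N : ℝ) ^ 2 * (3 * (diffCount A B : ℝ)) := by gcongr
      _ = (diffCount A B : ℝ) * (3 * (Tn k N : ℝ) ^ 2) := by ring
  · refine h2.trans ?_
    gcongr
    rw [div_le_iff₀ (by positivity), hnR]
    push_cast
    have h5 : ((1 : ℝ) / 4) ^ N * ((Tn k N : ℝ) * (2 ^ N * (r : ℝ))) ^ 3 =
        (Tn k N : ℝ) ^ 3 * (2 ^ N * (r : ℝ) ^ 3) := by
      have e1 : ((1 : ℝ) / 4) ^ N * ((2 : ℝ) ^ N) ^ 3 = 2 ^ N := by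
        rw [← pow_mul, mul_comm N 3, pow_mul, ← mul_pow]
        norm_num
      calc ((1 : ℝ) / 4) ^ N * ((Tn k N : ℝ) * (2 ^ N * (r : ℝ))) ^ 3
          = (((1 : ℝ) / 4) ^ N * ((2 : ℝ) ^ N) ^ 3) * ((Tn k N : ℝ) ^ 3 * (r : ℝ) ^ 3) := by ring
        _ = (Tn k N : ℝ) ^ 3 * (2 ^ N * (r : ℝ) ^ 3) := by rw [e1]; ring
    rw [h5]
    have h6 : (1 : ℝ) ≤ (Tn k N : ℝ) ^ 3 := one_le_pow₀ hTR1
    have h7 : (0 : ℝ) ≤ 2 ^ N * (r : ℝ) ^ 3 := by positivity
    nlinarith

end Vale.Agent.P037.Cx
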