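import Vale.Agent.Lib.P037.Cx.Local

/-!
Analysis of the copies inside one gadget.
-/

namespace Vale.Agent.P037.Cx

open Finset

variable {I : Type} {M k : ℕ}

lemma two_first (a b : Fin k) (hab : a < b) (h : ∀ τ, τ ≠ a → τ ≠ b → b < τ) :
    a.val = 0 ∧ b.val = 1 := by
  have ha : a.val = 0 := by
    by_contra h0
    have hlt : (⟨0, by omega⟩ : Fin k) < a := by rw [Fin.lt_def]; simp; omega
    have := h ⟨0, by omega⟩ (ne_of_lt hlt) (ne_of_lt (hlt.trans hab))
    exact absurd (this.trans (hlt.trans hab)) (lt_irrefl _)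
  refine ⟨ha, ?_⟩
  by_contra h1
  have hb := b.isLt
  rw [Fin.lt_def] at hab
  have := h ⟨1, by omega⟩ (by intro e; rw [← e] at ha; simp at ha)
    (by intro e; rw [← e] at h1; simp at h1)
  rw [Fin.lt_def] at this
  simp at this
  omega

lemma two_last (a b : Fin k) (hab : a < b) (h : ∀ τ, τ ≠ a → τ ≠ b → τ < a) :
    a.val + 2 = k ∧ b.val + 1 = k := by
  have hbk := b.isLt
  have hb : b.val + 1 = k := by
    by_contra h0
    have hlt : b < (⟨k - 1, by omega⟩ : Fin k) := by rw [Fin.lt_def]; simp; omega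
    have := h ⟨k - 1, by omega⟩ (ne_of_gt (hab.trans hlt)) (ne_of_gt hlt)
    exact absurd (this.trans (hab.trans hlt)) (lt_irrefl _)
  refine ⟨?_, hb⟩
  by_contra h1
  rw [Fin.lt_def] at hab
  have := h ⟨k - 2, by omega⟩ (by intro e; rw [← e] at h1; simp at h1; omega)
    (by intro e; rw [← e] at hb; simp at hb; omega)
  rw [Fin.lt_def] at this
  simp at this
  omega

lemma ent_rt_row (S : Sys I M) (U : Fin M) (b : Bool) (p : Fin k) (i i' : I) (y : Cls M k × I) :
    ent S (.rt U b p, i) y ↔ ent S (.rt U b p, i') y := by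
  obtain ⟨cy, iy⟩ := y
  cases cy <;> exact Iff.rfl

lemma ent_ct_col (S : Sys I M) (U : Fin M) (b : Bool) (q : Fin k) (j j' : I) (x : Cls M k × I) :
    ent S x (.ct U b q, j) ↔ ent S x (.ct U b q, j') := by
  obtain ⟨cx, ix⟩ := x
  cases cx <;> exact Iff.rfl

variable (S : Sys I M) (R C : Fin k → Cls M k × I)

theorem gadget_R (hk : 3 ≤ k) (U : Fin M) (b : Bool)
    (hE : ∀ a a', ent S (R a) (C a') ↔ a ≠ a')
    (hRo : ∀ a a', a < a' → fR S (R a) ≤ fR S (R a'))
    (hCo : ∀ a a', a < a' → fC S (C a) ≤ fC S (C a'))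
    (hrow : ∀ a, (∃ p i, R a = (.rt U b p, i) ∧ 2 ≤ p.val) ∨ (∃ i, R a = (.main U.succ, i)) ∨
      (∃ i, R a = (.main U.castSucc, i) ∧ S.bit U i = b))
    (hcol : ∀ a, (∃ q j, C a = (.rt U b q, j) ∧ 1 ≤ q.val) ∨
      (∃ j, C a = (.main U.castSucc, j) ∧ S.bit U j = b)) :
    U = S.tb ∧ ∃ i' i j, S.Bad i' i j ∧ R ⟨0, by omega⟩ = (.main U.succ, i') ∧
      R ⟨1, by omega⟩ = (.main U.castSucc, i) ∧ C ⟨0, by omega⟩ = (.main U.castSucc, j) := by
  classical
  -- the tag rows
  let lab : Fin k → ℕ := fun a => match (R a).1 with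
    | .rt _ _ p => p.val
    | _ => 0
  set T : Finset (Fin k) := univ.filter fun a => ∃ p i, R a = (.rt U b p, i) with hT
  have hTcard : T.card ≤ k - 2 := by
    have h1 : T.card ≤ (Finset.Ico 2 k).card := by
      apply Finset.card_le_card_of_injOn lab
      · intro a ha
        have ha' : ∃ p i, R a = (.rt U b p, i) := by simpa [hT] using ha
        rcases hrow a with ⟨p, i, hp, hp2⟩ | ⟨i, hi⟩ | ⟨i, hi, _⟩
        · simp only [lab, hp, Finset.coe_Ico, Set.mem_Ico]
          exact ⟨hp2, p.isLt⟩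
        · obtain ⟨p, i', hp⟩ := ha'
          rw [hi] at hp; simp at hp
        · obtain ⟨p, i', hp⟩ := ha'
          rw [hi] at hp; simp at hp
      · intro a ha a' ha' heq
        by_contra hne
        obtain ⟨p, i, hp⟩ : ∃ p i, R a = (.rt U b p, i) := by simpa [hT] using ha
        obtain ⟨p', i', hp'⟩ : ∃ p i, R a' = (.rt U b p, i) := by simpa [hT] using ha'
        have hpp : p = p' := by
          simp only [lab, hp, hp'] at heq
          exact Fin.ext heq
        have h1 : ent S (R a') (C a) := (hE _ _).mpr (Ne.symm hne)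
        rw [hp', ← hpp, ent_rt_row S U b p i' i, ← hp] at h1
        exact absurd ((hE _ _).mp h1) (by simp)
    rwa [Nat.card_Ico] at h1
  -- uniqueness of the two roles
  have huX' : ∀ a a' i i', R a = (.main U.succ, i) → R a' = (.main U.succ, i') → a = a' := by
    intro a a' i i' ha ha'
    by_contra hne
    have hC : ∀ a i, R a = (.main U.succ, i) → ∃ j, C a = (.main U.castSucc, j) := by
      intro a i ha
      rcases hcol a with ⟨q, j, hq, hq1⟩ | ⟨j, hj, _⟩
      · exfalso
        have : ent S (R a) (C a) := by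
          rw [ha, hq]
          simp only [ent, Fin.val_succ]
          exact ⟨by omega, Or.inl trivial⟩
        exact absurd ((hE _ _).mp this) (by simp)
      · exact ⟨j, hj⟩
    obtain ⟨j, hj⟩ := hC a i ha
    obtain ⟨j', hj'⟩ := hC a' i' ha'
    have e1 : ent S (R a) (C a') := (hE _ _).mpr hne
    have e2 : ent S (R a') (C a) := (hE _ _).mpr (Ne.symm hne)
    rw [ha, hj'] at e1
    rw [ha', hj] at e2
    simp only [ent, Fin.val_succ, Fin.val_castSucc] at e1 e2
    have f1 : S.z1 U i j' := by
      rcases e1 with ⟨h, _⟩ | ⟨_, h⟩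
      · omega
      · exact h
    have f2 : S.z1 U i' j := by
      rcases e2 with ⟨h, _⟩ | ⟨_, h⟩
      · omega
      · exact h
    rcases S.nest1 _ _ _ _ _ f1 f2 with h | h
    · have : ent S (R a) (C a) := by
        rw [ha, hj]; simp only [ent, Fin.val_succ, Fin.val_castSucc]
        exact Or.inr ⟨trivial, h⟩
      exact absurd ((hE _ _).mp this) (by simp)
    · have : ent S (R a') (C a') := by
        rw [ha', hj']; simp only [ent, Fin.val_succ, Fin.val_castSucc]
        exact Or.inr ⟨trivial, h⟩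
      exact absurd ((hE _ _).mp this) (by simp)
  have huX : ∀ a a' i i', R a = (.main U.castSucc, i) → S.bit U i = b →
      R a' = (.main U.castSucc, i') → S.bit U i' = b → a = a' := by
    intro a a' i i' ha hb ha' hb'
    by_contra hne
    have hC : ∀ a a' i i', a ≠ a' → R a = (.main U.castSucc, i) → S.bit U i = b →
        R a' = (.main U.castSucc, i') → S.bit U i' = b →
        ∃ j, C a = (.main U.castSucc, j) ∧ S.bit U j = b := by
      intro a a' i i' hne ha hb ha' hb'
      rcases hcol a with ⟨q, j, hq, hq1⟩ | ⟨j, hj, hjb⟩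
      · exfalso
        have e1 : ¬ ent S (R a) (C a) := fun h => absurd ((hE _ _).mp h) (by simp)
        have e2 : ent S (R a') (C a) := (hE _ _).mpr (Ne.symm hne)
        rw [ha, hq] at e1
        rw [ha', hq] at e2
        simp only [ent, Fin.val_castSucc] at e1 e2
        apply e1
        refine ⟨e2.1, ?_⟩
        rcases e2.2 with h | ⟨h1, _, h3⟩
        · omega
        · exact Or.inr ⟨trivial, hb, h3⟩
      · exact ⟨j, hj, hjb⟩
    obtain ⟨j, hj, hjb⟩ := hC a a' i i' hne ha hb ha' hb'
    obtain ⟨j', hj', hjb'⟩ := hC a' a i' i (Ne.symm hne) ha' hb' ha hb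
    have e1 : ent S (R a) (C a') := (hE _ _).mpr hne
    have e2 : ent S (R a') (C a) := (hE _ _).mpr (Ne.symm hne)
    rw [ha, hj'] at e1
    rw [ha', hj] at e2
    simp only [ent, Fin.val_castSucc] at e1 e2
    have f1 : S.z0 U i j' := by
      rcases e1 with ⟨_, _, h⟩ | ⟨h, _⟩
      · exact h
      · omega
    have f2 : S.z0 U i' j := by
      rcases e2 with ⟨_, _, h⟩ | ⟨h, _⟩
      · exact h
      · omega
    rcases S.nest0 _ _ _ _ _ f1 f2 with h | h
    · have : ent S (R a) (C a) := by
        rw [ha, hj]; simp only [ent, Fin.val_castSucc]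
        exact Or.inl ⟨trivial, by rw [hb, hjb], h⟩
      exact absurd ((hE _ _).mp this) (by simp)
    · have : ent S (R a') (C a') := by
        rw [ha', hj']; simp only [ent, Fin.val_castSucc]
        exact Or.inl ⟨trivial, by rw [hb', hjb'], h⟩
      exact absurd ((hE _ _).mp this) (by simp)
  -- two indices outside T
  have hcompl : 1 < (univ \ T).card := by
    have := Finset.card_sdiff_add_card_eq_card (Finset.subset_univ T)
    rw [Finset.card_univ, Fintype.card_fin] at this
    omega
  obtain ⟨a, ha, a', ha', hne⟩ := Finset.one_lt_card.mp hcompl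
  have hnT : ∀ a, a ∈ univ \ T → (∃ i, R a = (.main U.succ, i)) ∨
      (∃ i, R a = (.main U.castSucc, i) ∧ S.bit U i = b) := by
    intro a ha
    rcases hrow a with ⟨p, i, hp, _⟩ | h | h
    · exfalso
      have : a ∈ T := by
        rw [hT]; simp only [Finset.mem_filter, Finset.mem_univ, true_and]
        exact ⟨p, i, hp⟩
      exact (Finset.mem_sdiff.mp ha).2 this
    · exact Or.inl h
    · exact Or.inr h
  have hroles : ∃ x' x i' i, R x' = (.main U.succ, i') ∧ R x = (.main U.castSucc, i) ∧
      S.bit U i = b := by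
    rcases hnT a ha with ⟨i, hi⟩ | ⟨i, hi, hib⟩
    · rcases hnT a' ha' with ⟨i2, hi2⟩ | ⟨i2, hi2, hib2⟩
      · exact absurd (huX' _ _ _ _ hi hi2) hne
      · exact ⟨a, a', i, i2, hi, hi2, hib2⟩
    · rcases hnT a' ha' with ⟨i2, hi2⟩ | ⟨i2, hi2, hib2⟩
      · exact ⟨a', a, i2, i, hi2, hi, hib⟩
      · exact absurd (huX _ _ _ _ hi hib hi2 hib2) hne
  obtain ⟨x', x, i', i, hx', hx, hbx⟩ := hroles
  have hothers : ∀ τ, τ ≠ x' → τ ≠ x → ∃ p j, R τ = (.rt U b p, j) := by
    intro τ h1 h2
    rcases hrow τ with ⟨p, j, hp, _⟩ | ⟨j, hj⟩ | ⟨j, hj, hjb⟩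
    · exact ⟨p, j, hp⟩
    · exact absurd (huX' _ _ _ _ hj hx') h1
    · exact absurd (huX _ _ _ _ hj hjb hx hbx) h2
  have hbefore : ∀ τ σ t (l : I), (∃ p j, R τ = (.rt U b p, j)) → R σ = (.main t, l) → σ < τ := by
    rintro τ σ t l ⟨p, j, hp⟩ hσ
    rcases lt_trichotomy σ τ with h | h | h
    · exact h
    · rw [h, hp] at hσ; simp at hσ
    · exfalso
      have := hRo τ σ h
      rw [hp, hσ] at this
      simp only [fR, Prod.Lex.toLex_le_toLex] at this
      omega
  have hx'x : x' ≠ x := by
    intro h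
    rw [h, hx] at hx'
    have h1 : (U.castSucc).val = (U.succ).val := by
      have := (Prod.ext_iff.mp hx').1
      simp only [Cls.main.injEq] at this
      rw [this]
    simp at h1
  -- the column of x'
  have hCx' : ∃ j, C x' = (.main U.castSucc, j) ∧ S.bit U j = b := by
    rcases hcol x' with ⟨q, j, hq, hq1⟩ | h
    · exfalso
      have : ent S (R x') (C x') := by
        rw [hx', hq]
        simp only [ent, Fin.val_succ]
        exact ⟨by omega, Or.inl trivial⟩
      exact absurd ((hE _ _).mp this) (by simp)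
    · exact h
  obtain ⟨j', hj', hjb'⟩ := hCx'
  rcases lt_or_gt_of_ne hx'x with hlt | hlt
  · -- x' first
    obtain ⟨h0, h1⟩ := two_first x' x hlt (fun τ h1 h2 => hbefore τ x _ _ (hothers τ h1 h2) hx)
    have e0 : (⟨0, by omega⟩ : Fin k) = x' := Fin.ext h0.symm
    have e1 : (⟨1, by omega⟩ : Fin k) = x := Fin.ext h1.symm
    have hz1 : ¬ S.z1 U i' j' := by
      intro h
      have : ent S (R x') (C x') := by
        rw [hx', hj']; simp only [ent, Fin.val_succ, Fin.val_castSucc]
        exact Or.inr ⟨trivial, h⟩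
      exact absurd ((hE _ _).mp this) (by simp)
    have hz0 : S.z0 U i j' := by
      have : ent S (R x) (C x') := (hE _ _).mpr (Ne.symm hx'x)
      rw [hx, hj'] at this
      simp only [ent, Fin.val_castSucc] at this
      rcases this with ⟨_, _, h⟩ | ⟨h, _⟩
      · exact h
      · omega
    have hle : S.le U i' i := by
      by_contra hn
      have h2 := S.kR_gt U U.isLt i' i hn
      have h3 := hRo x' x hlt
      rw [hx', hx] at h3
      simp only [fR, Prod.Lex.toLex_le_toLex, Fin.val_succ, Fin.val_castSucc] at h3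
      omega
    obtain ⟨htb, hbad⟩ := S.tr U U.isLt i' i j' hle (by rw [hbx, hjb']) hz0 hz1
    refine ⟨Fin.ext htb, i', i, j', hbad, ?_, ?_, ?_⟩
    · rw [e0]; exact hx'
    · rw [e1]; exact hx
    · rw [e0]; exact hj'
  · -- x first: impossible
    exfalso
    have hCx : ∃ j, C x = (.main U.castSucc, j) ∧ S.bit U j = b := by
      rcases hcol x with ⟨q, j, hq, hq1⟩ | h
      · exfalso
        have := hCo x x' hlt
        rw [hq, hj'] at this
        simp only [fC, Prod.Lex.toLex_le_toLex] at this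
        omega
      · exact h
    obtain ⟨j, hj, hjb⟩ := hCx
    have hz0 : ¬ S.z0 U i j := by
      intro h
      have : ent S (R x) (C x) := by
        rw [hx, hj]; simp only [ent, Fin.val_castSucc]
        exact Or.inl ⟨trivial, by rw [hbx, hjb], h⟩
      exact absurd ((hE _ _).mp this) (by simp)
    have hz1 : S.z1 U i' j := by
      have : ent S (R x') (C x) := (hE _ _).mpr hx'x
      rw [hx', hj] at this
      simp only [ent, Fin.val_succ, Fin.val_castSucc] at this
      rcases this with ⟨h, _⟩ | ⟨_, h⟩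
      · omega
      · exact h
    have hle : ¬ S.le U i' i := by
      intro hn
      have h2 := S.kR_lt U U.isLt i' i hn
      have h3 := hRo x x' hlt
      rw [hx', hx] at h3
      simp only [fR, Prod.Lex.toLex_le_toLex, Fin.val_succ, Fin.val_castSucc] at h3
      omega
    exact hz0 (S.tr' U U.isLt i' i j hle (by rw [hbx, hjb]) hz1)

end Vale.Agent.P037.Cx
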