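import Vale.Agent.Lib.P037.Cx.Gadget

/-!
Analysis of the copies inside one gadget of the second kind, and the conclusion for all copies.
-/

namespace Vale.Agent.P037.Cx

open Finset

variable {I : Type} {M k : ℕ}

variable (S : Sys I M) (R C : Fin k → Cls M k × I)

theorem gadget_C (hk : 3 ≤ k) (U : Fin M) (b : Bool)
    (hE : ∀ a a', ent S (R a) (C a') ↔ a ≠ a')
    (hRo : ∀ a a', a < a' → fR S (R a) ≤ fR S (R a'))
    (hCo : ∀ a a', a < a' → fC S (C a) ≤ fC S (C a'))
    (hrow : ∀ a, (∃ p i, R a = (.ct U b p, i) ∧ p.val + 1 < k) ∨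
      (∃ i, R a = (.main U.succ, i) ∧ S.bit (U + 1) i = b))
    (hcol : ∀ a, (∃ q j, C a = (.ct U b q, j) ∧ q.val + 2 < k) ∨
      (∃ j, C a = (.main U.castSucc, j)) ∨
      (∃ j, C a = (.main U.succ, j) ∧ S.bit (U + 1) j = b)) : False := by
  classical
  let lab : Fin k → ℕ := fun a => match (C a).1 with
    | .ct _ _ p => p.val
    | _ => 0
  set T : Finset (Fin k) := univ.filter fun a => ∃ p i, C a = (.ct U b p, i) with hT
  have hTcard : T.card ≤ k - 2 := by
    have h1 : T.card ≤ (Finset.range (k - 2)).card := by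
      apply Finset.card_le_card_of_injOn lab
      · intro a ha
        have ha' : ∃ p i, C a = (.ct U b p, i) := by simpa [hT] using ha
        rcases hcol a with ⟨p, i, hp, hp2⟩ | ⟨i, hi⟩ | ⟨i, hi, _⟩
        · simp only [lab, hp, Finset.coe_range, Set.mem_Iio]
          omega
        · obtain ⟨p, i', hp⟩ := ha'
          rw [hi] at hp; simp at hp
        · obtain ⟨p, i', hp⟩ := ha'
          rw [hi] at hp; simp at hp
      · intro a ha a' ha' heq
        by_contra hne
        obtain ⟨p, i, hp⟩ : ∃ p i, C a = (.ct U b p, i) := by simpa [hT] using ha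
        obtain ⟨p', i', hp'⟩ : ∃ p i, C a' = (.ct U b p, i) := by simpa [hT] using ha'
        have hpp : p = p' := by
          simp only [lab, hp, hp'] at heq
          exact Fin.ext heq
        have h1 : ent S (R a) (C a') := (hE _ _).mpr hne
        rw [hp', ← hpp, ent_ct_col S U b p i' i, ← hp] at h1
        exact absurd ((hE _ _).mp h1) (by simp)
    rwa [Finset.card_range] at h1
  -- two columns in the role of y'
  have huY' : ∀ a a' j j', C a = (.main U.succ, j) → S.bit (U + 1) j = b →
      C a' = (.main U.succ, j') → S.bit (U + 1) j' = b → a = a' := by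
    intro a a' j j' ha hb ha' hb'
    by_contra hne
    have hR : ∀ a j, C a = (.main U.succ, j) → S.bit (U + 1) j = b →
        ∃ i, R a = (.main U.succ, i) ∧ S.bit (U + 1) i = b := by
      intro a j ha hb
      rcases hrow a with ⟨p, i, hp, hp1⟩ | h
      · exfalso
        have : ent S (R a) (C a) := by
          rw [ha, hp]
          simp only [ent, Fin.val_succ]
          exact ⟨by omega, Or.inr ⟨trivial, hb⟩⟩
        exact absurd ((hE _ _).mp this) (by simp)
      · exact h
    obtain ⟨i, hi, hib⟩ := hR a j ha hb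
    obtain ⟨i', hi', hib'⟩ := hR a' j' ha' hb'
    have e1 : ent S (R a) (C a') := (hE _ _).mpr hne
    have e2 : ent S (R a') (C a) := (hE _ _).mpr (Ne.symm hne)
    rw [hi, ha'] at e1
    rw [hi', ha] at e2
    simp only [ent, Fin.val_succ] at e1 e2
    have f1 : S.z0 (U + 1) i j' := by
      rcases e1 with ⟨_, _, h⟩ | ⟨h, _⟩
      · exact h
      · omega
    have f2 : S.z0 (U + 1) i' j := by
      rcases e2 with ⟨_, _, h⟩ | ⟨h, _⟩
      · exact h
      · omega
    rcases S.nest0 _ _ _ _ _ f1 f2 with h | h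
    · have : ent S (R a) (C a) := by
        rw [hi, ha]; simp only [ent, Fin.val_succ]
        exact Or.inl ⟨trivial, by rw [hib, hb], h⟩
      exact absurd ((hE _ _).mp this) (by simp)
    · have : ent S (R a') (C a') := by
        rw [hi', ha']; simp only [ent, Fin.val_succ]
        exact Or.inl ⟨trivial, by rw [hib', hb'], h⟩
      exact absurd ((hE _ _).mp this) (by simp)
  -- two columns in the role of y
  have huY : ∀ a a' j j', C a = (.main U.castSucc, j) → C a' = (.main U.castSucc, j') →
      a = a' := by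
    intro a a' j j' ha ha'
    by_contra hne
    have hR : ∀ a a' j j', a ≠ a' → C a = (.main U.castSucc, j) → C a' = (.main U.castSucc, j') →
        ∃ i, R a = (.main U.succ, i) ∧ S.bit (U + 1) i = b := by
      intro a a' j j' hne ha ha'
      rcases hrow a with ⟨p, i, hp, hp1⟩ | h
      · exfalso
        have e1 : ¬ ent S (R a) (C a) := fun h => absurd ((hE _ _).mp h) (by simp)
        have e2 : ent S (R a) (C a') := (hE _ _).mpr hne
        rw [ha, hp] at e1
        rw [ha', hp] at e2
        simp only [ent, Fin.val_castSucc] at e1 e2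
        apply e1
        refine ⟨e2.1, ?_⟩
        rcases e2.2 with ⟨_, h⟩ | ⟨h, _⟩
        · exact Or.inl ⟨trivial, h⟩
        · omega
      · exact h
    obtain ⟨i, hi, hib⟩ := hR a a' j j' hne ha ha'
    obtain ⟨i', hi', hib'⟩ := hR a' a j' j (Ne.symm hne) ha' ha
    have e1 : ent S (R a) (C a') := (hE _ _).mpr hne
    have e2 : ent S (R a') (C a) := (hE _ _).mpr (Ne.symm hne)
    rw [hi, ha'] at e1
    rw [hi', ha] at e2
    simp only [ent, Fin.val_succ, Fin.val_castSucc] at e1 e2
    have f1 : S.z1 U i j' := by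
      rcases e1 with ⟨h, _⟩ | ⟨_, h⟩
      · omega
      · exact h
    have f2 : S.z1 U i' j := by
      rcases e2 with ⟨h, _⟩ | ⟨_, h⟩
      · omega
      · exact h
    rcases S.nest1 _ _ _ _ _ f1 f2 with h | h
    · have : ent S (R a) (C a) := by
        rw [hi, ha]; simp only [ent, Fin.val_succ, Fin.val_castSucc]
        exact Or.inr ⟨trivial, h⟩
      exact absurd ((hE _ _).mp this) (by simp)
    · have : ent S (R a') (C a') := by
        rw [hi', ha']; simp only [ent, Fin.val_succ, Fin.val_castSucc]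
        exact Or.inr ⟨trivial, h⟩
      exact absurd ((hE _ _).mp this) (by simp)
  have hcompl : 1 < (univ \ T).card := by
    have := Finset.card_sdiff_add_card_eq_card (Finset.subset_univ T)
    rw [Finset.card_univ, Fintype.card_fin] at this
    omega
  obtain ⟨a, ha, a', ha', hne⟩ := Finset.one_lt_card.mp hcompl
  have hnT : ∀ a, a ∈ univ \ T → (∃ i, C a = (.main U.castSucc, i)) ∨
      (∃ i, C a = (.main U.succ, i) ∧ S.bit (U + 1) i = b) := by
    intro a ha
    rcases hcol a with ⟨p, i, hp, _⟩ | h | h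
    · exfalso
      have : a ∈ T := by
        rw [hT]; simp only [Finset.mem_filter, Finset.mem_univ, true_and]
        exact ⟨p, i, hp⟩
      exact (Finset.mem_sdiff.mp ha).2 this
    · exact Or.inl h
    · exact Or.inr h
  have hroles : ∃ y y' j j', C y = (.main U.castSucc, j) ∧ C y' = (.main U.succ, j') ∧
      S.bit (U + 1) j' = b := by
    rcases hnT a ha with ⟨i, hi⟩ | ⟨i, hi, hib⟩
    · rcases hnT a' ha' with ⟨i2, hi2⟩ | ⟨i2, hi2, hib2⟩
      · exact absurd (huY _ _ _ _ hi hi2) hne
      · exact ⟨a, a', i, i2, hi, hi2, hib2⟩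
    · rcases hnT a' ha' with ⟨i2, hi2⟩ | ⟨i2, hi2, hib2⟩
      · exact ⟨a', a, i2, i, hi2, hi, hib⟩
      · exact absurd (huY' _ _ _ _ hi hib hi2 hib2) hne
  obtain ⟨y, y', j, j', hy, hy', hby⟩ := hroles
  have hothers : ∀ τ, τ ≠ y → τ ≠ y' → ∃ p l, C τ = (.ct U b p, l) := by
    intro τ h1 h2
    rcases hcol τ with ⟨p, l, hp, _⟩ | ⟨l, hl⟩ | ⟨l, hl, hlb⟩
    · exact ⟨p, l, hp⟩
    · exact absurd (huY _ _ _ _ hl hy) h1
    · exact absurd (huY' _ _ _ _ hl hlb hy' hby) h2
  have hbefore : ∀ τ σ t (l : I), (∃ p l, C τ = (.ct U b p, l)) → C σ = (.main t, l) → τ < σ := by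
    rintro τ σ t l ⟨p, l', hp⟩ hσ
    rcases lt_trichotomy σ τ with h | h | h
    · exfalso
      have := hCo σ τ h
      rw [hp, hσ] at this
      simp only [fC, Prod.Lex.toLex_le_toLex] at this
      omega
    · rw [h, hp] at hσ; simp at hσ
    · exact h
  have hyy' : y ≠ y' := by
    intro h
    rw [h, hy'] at hy
    have h1 : (U.castSucc).val = (U.succ).val := by
      have := (Prod.ext_iff.mp hy).1
      simp only [Cls.main.injEq] at this
      rw [this]
    simp at h1
  -- the row of y'
  have hRy' : ∃ i, R y' = (.main U.succ, i) ∧ S.bit (U + 1) i = b := by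
    rcases hrow y' with ⟨p, i, hp, hp1⟩ | h
    · exfalso
      have : ent S (R y') (C y') := by
        rw [hy', hp]
        simp only [ent, Fin.val_succ]
        exact ⟨by omega, Or.inr ⟨trivial, hby⟩⟩
      exact absurd ((hE _ _).mp this) (by simp)
    · exact h
  obtain ⟨i, hi, hib⟩ := hRy'
  rcases lt_or_gt_of_ne hyy' with hlt | hlt
  · -- y before y'
    have hz1 : S.z1 U i j := by
      have : ent S (R y') (C y) := (hE _ _).mpr (Ne.symm hyy')
      rw [hi, hy] at this
      simp only [ent, Fin.val_succ, Fin.val_castSucc] at this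
      rcases this with ⟨h, _⟩ | ⟨_, h⟩
      · omega
      · exact h
    have hz0 : ¬ S.z0 (U + 1) i j' := by
      intro h
      have : ent S (R y') (C y') := by
        rw [hi, hy']; simp only [ent, Fin.val_succ]
        exact Or.inl ⟨trivial, by rw [hib, hby], h⟩
      exact absurd ((hE _ _).mp this) (by simp)
    have hle : S.le U j j' := by
      by_contra hn
      have h2 := S.kC_gt U U.isLt j j' hn
      have h3 := hCo y y' hlt
      rw [hy, hy'] at h3
      simp only [fC, Prod.Lex.toLex_le_toLex, Fin.val_succ, Fin.val_castSucc] at h3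
      omega
    exact hz0 (S.tc U U.isLt i j j' hle (by rw [hib, hby]) hz1)
  · -- y' before y
    obtain ⟨h0, h1⟩ := two_last y' y hlt
      (fun τ h1 h2 => hbefore τ y' _ _ (hothers τ h2 h1) hy')
    have hRy : ∃ i, R y = (.main U.succ, i) ∧ S.bit (U + 1) i = b := by
      rcases hrow y with ⟨p, i2, hp, hp1⟩ | h
      · exfalso
        have := hRo y' y hlt
        rw [hp, hi] at this
        simp only [fR, Prod.Lex.toLex_le_toLex] at this
        omega
      · exact h
    obtain ⟨i2, hi2, hib2⟩ := hRy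
    have hz0 : S.z0 (U + 1) i2 j' := by
      have : ent S (R y) (C y') := (hE _ _).mpr hyy'
      rw [hi2, hy'] at this
      simp only [ent, Fin.val_succ] at this
      rcases this with ⟨_, _, h⟩ | ⟨h, _⟩
      · exact h
      · omega
    have hz1 : ¬ S.z1 U i2 j := by
      intro h
      have : ent S (R y) (C y) := by
        rw [hi2, hy]; simp only [ent, Fin.val_succ, Fin.val_castSucc]
        exact Or.inr ⟨trivial, h⟩
      exact absurd ((hE _ _).mp this) (by simp)
    have hle : ¬ S.le U j j' := by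
      intro hn
      have h2 := S.kC_lt U U.isLt j j' hn
      have h3 := hCo y' y hlt
      rw [hy, hy'] at h3
      simp only [fC, Prod.Lex.toLex_le_toLex, Fin.val_succ, Fin.val_castSucc] at h3
      omega
    exact hz1 (S.tc' U U.isLt i2 j j' hle (by rw [hib2, hby]) hz0)

lemma rows_of_R {x y : Cls M k × I} {u : ℕ} {b : Bool} (hy : inst y = some (true, u, b))
    (h : ent S x y) : ∃ U : Fin M, U.val = u ∧
      ((∃ p i, x = (.rt U b p, i) ∧ 2 ≤ p.val) ∨ (∃ i, x = (.main U.succ, i)) ∨
      (∃ i, x = (.main U.castSucc, i) ∧ S.bit U i = b)) := by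
  obtain ⟨cx, ix⟩ := x
  obtain ⟨cy, iy⟩ := y
  cases cy with
  | main t => simp [inst] at hy
  | ct U b' q => simp [inst] at hy
  | rt U b' q =>
    simp only [inst, Option.some.injEq, Prod.mk.injEq, true_and] at hy
    obtain ⟨rfl, rfl⟩ := hy
    refine ⟨U, rfl, ?_⟩
    cases cx with
    | main t =>
      simp only [ent] at h
      rcases h.2 with h1 | ⟨h1, h2, h3⟩
      · right; left
        have : t = U.succ := Fin.ext (by simpa using h1)
        exact ⟨ix, by rw [this]⟩
      · right; right
        have : t = U.castSucc := Fin.ext (by simpa using h1)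
        exact ⟨ix, by rw [this], by rw [← h1]; exact h2⟩
    | ct U' b'' p => simp [ent] at h
    | rt U' b'' p =>
      simp only [ent] at h
      left
      exact ⟨p, ix, by rw [h.1, h.2.1], h.2.2.1⟩

lemma cols_of_R {x y : Cls M k × I} {u : ℕ} {b : Bool} (hx : inst x = some (true, u, b))
    (h : ent S x y) : ∃ U : Fin M, U.val = u ∧
      ((∃ q j, y = (.rt U b q, j) ∧ 1 ≤ q.val) ∨
      (∃ j, y = (.main U.castSucc, j) ∧ S.bit U j = b)) := by
  obtain ⟨cx, ix⟩ := x
  obtain ⟨cy, iy⟩ := y
  cases cx with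
  | main t => simp [inst] at hx
  | ct U b' q => simp [inst] at hx
  | rt U b' p =>
    simp only [inst, Option.some.injEq, Prod.mk.injEq, true_and] at hx
    obtain ⟨rfl, rfl⟩ := hx
    refine ⟨U, rfl, ?_⟩
    cases cy with
    | main t =>
      simp only [ent] at h
      right
      have : t = U.castSucc := Fin.ext (by simpa using h.2.1)
      exact ⟨iy, by rw [this], by rw [← h.2.1]; exact h.2.2⟩
    | ct U' b'' p => simp [ent] at h
    | rt U' b'' q =>
      simp only [ent] at h
      left
      exact ⟨q, iy, by rw [h.1, h.2.1], h.2.2.2.1⟩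

lemma rows_of_C {x y : Cls M k × I} {u : ℕ} {b : Bool} (hy : inst y = some (false, u, b))
    (h : ent S x y) : ∃ U : Fin M, U.val = u ∧
      ((∃ p i, x = (.ct U b p, i) ∧ p.val + 1 < k) ∨
      (∃ i, x = (.main U.succ, i) ∧ S.bit (U + 1) i = b)) := by
  obtain ⟨cx, ix⟩ := x
  obtain ⟨cy, iy⟩ := y
  cases cy with
  | main t => simp [inst] at hy
  | rt U b' q => simp [inst] at hy
  | ct U b' q =>
    simp only [inst, Option.some.injEq, Prod.mk.injEq, true_and] at hy
    obtain ⟨rfl, rfl⟩ := hy
    refine ⟨U, rfl, ?_⟩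
    cases cx with
    | main t =>
      simp only [ent] at h
      right
      have : t = U.succ := Fin.ext (by simpa using h.2.1)
      exact ⟨ix, by rw [this], by rw [← h.2.1]; exact h.2.2⟩
    | rt U' b'' p => simp [ent] at h
    | ct U' b'' p =>
      simp only [ent] at h
      left
      exact ⟨p, ix, by rw [h.1, h.2.1], h.2.2.1⟩

lemma cols_of_C {x y : Cls M k × I} {u : ℕ} {b : Bool} (hx : inst x = some (false, u, b))
    (h : ent S x y) : ∃ U : Fin M, U.val = u ∧
      ((∃ q j, y = (.ct U b q, j) ∧ q.val + 2 < k) ∨ (∃ j, y = (.main U.castSucc, j)) ∨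
      (∃ j, y = (.main U.succ, j) ∧ S.bit (U + 1) j = b)) := by
  obtain ⟨cx, ix⟩ := x
  obtain ⟨cy, iy⟩ := y
  cases cx with
  | main t => simp [inst] at hx
  | rt U b' q => simp [inst] at hx
  | ct U b' p =>
    simp only [inst, Option.some.injEq, Prod.mk.injEq, true_and] at hx
    obtain ⟨rfl, rfl⟩ := hx
    refine ⟨U, rfl, ?_⟩
    cases cy with
    | main t =>
      simp only [ent] at h
      rcases h.2 with ⟨h1, h2⟩ | ⟨h1, h2⟩
      · right; left
        have : t = U.castSucc := Fin.ext (by simpa using h1)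
        exact ⟨iy, by rw [this]⟩
      · right; right
        have : t = U.succ := Fin.ext (by simpa using h1)
        exact ⟨iy, by rw [this], by rw [← h1]; exact h2⟩
    | rt U' b'' p => simp [ent] at h
    | ct U' b'' q =>
      simp only [ent] at h
      left
      exact ⟨q, iy, by rw [h.1, h.2.1], h.2.2.2.1⟩

/-- every copy of the complement of the identity contains a bad triple at the bad level -/
theorem copy_bad (hk : 13 ≤ k)
    (hE : ∀ a a', ent S (R a) (C a') ↔ a ≠ a')
    (hRo : ∀ a a', a < a' → fR S (R a) ≤ fR S (R a'))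
    (hCo : ∀ a a', a < a' → fC S (C a) ≤ fC S (C a')) :
    ∃ i' i j, S.Bad i' i j ∧ R ⟨0, by omega⟩ = (.main S.tb.succ, i') ∧
      R ⟨1, by omega⟩ = (.main S.tb.castSucc, i) ∧
      C ⟨0, by omega⟩ = (.main S.tb.castSucc, j) := by
  obtain ⟨⟨kind, u, b⟩, _, _, hR, hC⟩ := same_gadget S R C hk hE
  cases kind with
  | true =>
    have hrow : ∀ a, ∃ U : Fin M, U.val = u ∧
        ((∃ p i, R a = (.rt U b p, i) ∧ 2 ≤ p.val) ∨ (∃ i, R a = (.main U.succ, i)) ∨
        (∃ i, R a = (.main U.castSucc, i) ∧ S.bit U i = b)) := by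
      intro a
      obtain ⟨a', hne, ha'⟩ := hC a
      exact rows_of_R S ha' ((hE a a').mpr (Ne.symm hne))
    have hcol : ∀ a, ∃ U : Fin M, U.val = u ∧ ((∃ q j, C a = (.rt U b q, j) ∧ 1 ≤ q.val) ∨
        (∃ j, C a = (.main U.castSucc, j) ∧ S.bit U j = b)) := by
      intro a
      obtain ⟨a', hne, ha'⟩ := hR a
      exact cols_of_R S ha' ((hE a' a).mpr hne)
    obtain ⟨U, hU, _⟩ := hrow ⟨0, by omega⟩
    have hrow' : ∀ a, (∃ p i, R a = (.rt U b p, i) ∧ 2 ≤ p.val) ∨
        (∃ i, R a = (.main U.succ, i)) ∨ (∃ i, R a = (.main U.castSucc, i) ∧ S.bit U i = b) := by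
      intro a
      obtain ⟨V, hV, h⟩ := hrow a
      obtain rfl : V = U := Fin.ext (by rw [hV, hU])
      exact h
    have hcol' : ∀ a, (∃ q j, C a = (.rt U b q, j) ∧ 1 ≤ q.val) ∨
        (∃ j, C a = (.main U.castSucc, j) ∧ S.bit U j = b) := by
      intro a
      obtain ⟨V, hV, h⟩ := hcol a
      obtain rfl : V = U := Fin.ext (by rw [hV, hU])
      exact h
    obtain ⟨hU, i', i, j, h⟩ := gadget_R S R C (by omega) U b hE hRo hCo hrow' hcol'
    rw [← hU]
    exact ⟨i', i, j, h⟩
  | false =>
    exfalso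
    have hrow : ∀ a, ∃ U : Fin M, U.val = u ∧
        ((∃ p i, R a = (.ct U b p, i) ∧ p.val + 1 < k) ∨
        (∃ i, R a = (.main U.succ, i) ∧ S.bit (U + 1) i = b)) := by
      intro a
      obtain ⟨a', hne, ha'⟩ := hC a
      exact rows_of_C S ha' ((hE a a').mpr (Ne.symm hne))
    have hcol : ∀ a, ∃ U : Fin M, U.val = u ∧
        ((∃ q j, C a = (.ct U b q, j) ∧ q.val + 2 < k) ∨ (∃ j, C a = (.main U.castSucc, j)) ∨
        (∃ j, C a = (.main U.succ, j) ∧ S.bit (U + 1) j = b)) := by
      intro a
      obtain ⟨a', hne, ha'⟩ := hR a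
      exact cols_of_C S ha' ((hE a' a).mpr hne)
    obtain ⟨U, hU, _⟩ := hrow ⟨0, by omega⟩
    refine gadget_C S R C (by omega) U b hE hRo hCo ?_ ?_
    · intro a
      obtain ⟨V, hV, h⟩ := hrow a
      obtain rfl : V = U := Fin.ext (by rw [hV, hU])
      exact h
    · intro a
      obtain ⟨V, hV, h⟩ := hcol a
      obtain rfl : V = U := Fin.ext (by rw [hV, hU])
      exact h

end Vale.Agent.P037.Cx
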