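import Vale.Agent.Lib.P037.Cx.Sys

/-!
A copy of the complement of the identity lives in one gadget.
-/

namespace Vale.Agent.P037.Cx

open Finset

variable {I : Type} {M k : ℕ}

lemma tagrow_const (S : Sys I M) (x y1 y2 : Cls M k × I) (γ : ℕ × Bool) (hx : mc S x = none)
    (h1 : mc S y1 = some γ) (h2 : mc S y2 = some γ) (h : ent S x y1) : ent S x y2 := by
  obtain ⟨cx, ix⟩ := x
  obtain ⟨c1, i1⟩ := y1
  obtain ⟨c2, i2⟩ := y2
  cases c1 with
  | rt u b p => simp [mc] at h1
  | ct u b p => simp [mc] at h1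
  | main t1 =>
    cases c2 with
    | rt u b p => simp [mc] at h2
    | ct u b p => simp [mc] at h2
    | main t2 =>
      simp only [mc, Option.some.injEq] at h1 h2
      rw [← h2, Prod.mk.injEq] at h1
      obtain ⟨ht, hb⟩ := h1
      obtain rfl : t1 = t2 := Fin.ext ht
      cases cx with
      | main t => simp [mc] at hx
      | rt u b p =>
        simp only [ent] at h ⊢
        rw [hb] at h
        exact h
      | ct u b p =>
        simp only [ent] at h ⊢
        rw [hb] at h
        exact h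

lemma tagcol_const (S : Sys I M) (y x1 x2 : Cls M k × I) (γ : ℕ × Bool) (hy : mc S y = none)
    (h1 : mc S x1 = some γ) (h2 : mc S x2 = some γ) (h : ent S x1 y) : ent S x2 y := by
  obtain ⟨cy, iy⟩ := y
  obtain ⟨c1, i1⟩ := x1
  obtain ⟨c2, i2⟩ := x2
  cases c1 with
  | rt u b p => simp [mc] at h1
  | ct u b p => simp [mc] at h1
  | main t1 =>
    cases c2 with
    | rt u b p => simp [mc] at h2
    | ct u b p => simp [mc] at h2
    | main t2 =>
      simp only [mc, Option.some.injEq] at h1 h2
      rw [← h2, Prod.mk.injEq] at h1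
      obtain ⟨ht, hb⟩ := h1
      obtain rfl : t1 = t2 := Fin.ext ht
      cases cy with
      | main t => simp [mc] at hy
      | rt u b p =>
        simp only [ent] at h ⊢
        rw [hb] at h
        exact h
      | ct u b p =>
        simp only [ent] at h ⊢
        rw [hb] at h
        exact h

lemma nested (S : Sys I M) (x1 x2 y1 y2 : Cls M k × I) (γ δ : ℕ × Bool)
    (hx1 : mc S x1 = some δ) (hx2 : mc S x2 = some δ)
    (h1 : mc S y1 = some γ) (h2 : mc S y2 = some γ) (h12 : ent S x1 y2) (h21 : ent S x2 y1) :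
    ent S x1 y1 ∨ ent S x2 y2 := by
  obtain ⟨c1, i1⟩ := x1
  obtain ⟨c2, i2⟩ := x2
  obtain ⟨d1, j1⟩ := y1
  obtain ⟨d2, j2⟩ := y2
  cases c1 with
  | rt u b p => simp [mc] at hx1
  | ct u b p => simp [mc] at hx1
  | main t1 =>
  cases c2 with
  | rt u b p => simp [mc] at hx2
  | ct u b p => simp [mc] at hx2
  | main t2 =>
  cases d1 with
  | rt u b p => simp [mc] at h1
  | ct u b p => simp [mc] at h1
  | main u1 =>
  cases d2 with
  | rt u b p => simp [mc] at h2
  | ct u b p => simp [mc] at h2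
  | main u2 =>
  simp only [mc, Option.some.injEq] at h1 h2 hx1 hx2
  rw [← h2, Prod.mk.injEq] at h1
  rw [← hx2, Prod.mk.injEq] at hx1
  obtain ⟨hu, hbu⟩ := h1
  obtain ⟨ht, hbt⟩ := hx1
  obtain rfl : t1 = t2 := Fin.ext ht
  obtain rfl : u1 = u2 := Fin.ext hu
  simp only [ent] at h12 h21 ⊢
  rcases h12 with ⟨e1, e2, e3⟩ | ⟨e1, e3⟩
  · rcases h21 with ⟨f1, f2, f3⟩ | ⟨f1, f3⟩
    · rcases S.nest0 _ _ _ _ _ e3 f3 with h | h
      · left; left
        exact ⟨e1, by rw [hbt, f2], h⟩
      · right; left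
        exact ⟨e1, by rw [← hbt, e2], h⟩
    · omega
  · rcases h21 with ⟨f1, f2, f3⟩ | ⟨f1, f3⟩
    · omega
    · rcases S.nest1 _ _ _ _ _ e3 f3 with h | h
      · left; right; exact ⟨e1, h⟩
      · right; right; exact ⟨e1, h⟩

/-- the main column classes which a row can meet -/
lemma row_nbr (S : Sys I M) (x : Cls M k × I) : ∃ N : Finset (ℕ × Bool), N.card ≤ 3 ∧
    ∀ y γ, mc S y = some γ → ent S x y → γ ∈ N := by
  classical
  obtain ⟨cx, ix⟩ := x
  cases cx with
  | main t =>
    refine ⟨{(t.val, S.bit t ix), (t.val - 1, true), (t.val - 1, false)},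
      Finset.card_le_three, ?_⟩
    rintro ⟨cy, iy⟩ ⟨a, b⟩ hy h
    cases cy with
    | rt u b p => simp [mc] at hy
    | ct u b p => simp [mc] at hy
    | main u =>
      simp only [mc, Option.some.injEq, Prod.mk.injEq] at hy
      obtain ⟨rfl, rfl⟩ := hy
      simp only [ent] at h
      simp only [Finset.mem_insert, Finset.mem_singleton, Prod.mk.injEq]
      rcases h with ⟨e1, e2, e3⟩ | ⟨e1, e3⟩
      · left
        exact ⟨e1.symm, by rw [e2, e1]⟩
      · right
        rcases S.bit u iy with _ | _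
        · right; exact ⟨by omega, rfl⟩
        · left; exact ⟨by omega, rfl⟩
  | rt u b p =>
    refine ⟨{(u.val, b)}, by simp, ?_⟩
    rintro ⟨cy, iy⟩ ⟨a, b'⟩ hy h
    cases cy with
    | rt u b p => simp [mc] at hy
    | ct u b p => simp [mc] at hy
    | main t =>
      simp only [mc, Option.some.injEq, Prod.mk.injEq] at hy
      obtain ⟨rfl, rfl⟩ := hy
      simp only [ent] at h
      simp only [Finset.mem_singleton, Prod.mk.injEq]
      exact ⟨h.2.1, h.2.2⟩
  | ct u b p =>
    refine ⟨{(u.val + 1, b), (u.val, true), (u.val, false)}, Finset.card_le_three, ?_⟩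
    rintro ⟨cy, iy⟩ ⟨a, b'⟩ hy h
    cases cy with
    | rt u b p => simp [mc] at hy
    | ct u b p => simp [mc] at hy
    | main t =>
      simp only [mc, Option.some.injEq, Prod.mk.injEq] at hy
      obtain ⟨rfl, rfl⟩ := hy
      simp only [ent] at h
      simp only [Finset.mem_insert, Finset.mem_singleton, Prod.mk.injEq]
      rcases h.2 with ⟨e1, e2⟩ | ⟨e1, e2⟩
      · right
        rcases S.bit t iy with _ | _
        · right; exact ⟨e1, rfl⟩
        · left; exact ⟨e1, rfl⟩
      · left; exact ⟨e1, e2⟩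

/-- the main row classes which a column can meet -/
lemma col_nbr (S : Sys I M) (y : Cls M k × I) : ∃ N : Finset (ℕ × Bool), N.card ≤ 3 ∧
    ∀ x γ, mc S x = some γ → ent S x y → γ ∈ N := by
  classical
  obtain ⟨cy, iy⟩ := y
  cases cy with
  | main u =>
    refine ⟨{(u.val, S.bit u iy), (u.val + 1, true), (u.val + 1, false)},
      Finset.card_le_three, ?_⟩
    rintro ⟨cx, ix⟩ ⟨a, b⟩ hx h
    cases cx with
    | rt u b p => simp [mc] at hx
    | ct u b p => simp [mc] at hx
    | main t =>
      simp only [mc, Option.some.injEq, Prod.mk.injEq] at hx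
      obtain ⟨rfl, rfl⟩ := hx
      simp only [ent] at h
      simp only [Finset.mem_insert, Finset.mem_singleton, Prod.mk.injEq]
      rcases h with ⟨e1, e2, e3⟩ | ⟨e1, e3⟩
      · left
        exact ⟨e1, by rw [e2, e1]⟩
      · right
        rcases S.bit t ix with _ | _
        · right; exact ⟨by omega, rfl⟩
        · left; exact ⟨by omega, rfl⟩
  | rt u b q =>
    refine ⟨{(u.val, b), (u.val + 1, true), (u.val + 1, false)}, Finset.card_le_three, ?_⟩
    rintro ⟨cx, ix⟩ ⟨a, b'⟩ hx h
    cases cx with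
    | rt u b p => simp [mc] at hx
    | ct u b p => simp [mc] at hx
    | main t =>
      simp only [mc, Option.some.injEq, Prod.mk.injEq] at hx
      obtain ⟨rfl, rfl⟩ := hx
      simp only [ent] at h
      simp only [Finset.mem_insert, Finset.mem_singleton, Prod.mk.injEq]
      rcases h.2 with e1 | ⟨e1, e2, e3⟩
      · right
        rcases S.bit t ix with _ | _
        · right; exact ⟨e1, rfl⟩
        · left; exact ⟨e1, rfl⟩
      · left; exact ⟨e1, e2⟩
  | ct u b q =>
    refine ⟨{(u.val + 1, b)}, by simp, ?_⟩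
    rintro ⟨cx, ix⟩ ⟨a, b'⟩ hx h
    cases cx with
    | rt u b p => simp [mc] at hx
    | ct u b p => simp [mc] at hx
    | main t =>
      simp only [mc, Option.some.injEq, Prod.mk.injEq] at hx
      obtain ⟨rfl, rfl⟩ := hx
      simp only [ent] at h
      simp only [Finset.mem_singleton, Prod.mk.injEq]
      exact ⟨h.2.1, h.2.2⟩

/-- for a column class, the row classes which can meet it -/
lemma class_nbr_row (S : Sys I M) (γ : ℕ × Bool) : ∃ N : Finset (ℕ × Bool), N.card ≤ 3 ∧
    ∀ (x y : Cls M k × I) δ, mc S x = some δ → mc S y = some γ → ent S x y → δ ∈ N := by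
  classical
  obtain ⟨a, b⟩ := γ
  refine ⟨{(a, b), (a + 1, true), (a + 1, false)}, Finset.card_le_three, ?_⟩
  rintro ⟨cx, ix⟩ ⟨cy, iy⟩ ⟨a', b'⟩ hx hy h
  cases cx with
  | rt u b p => simp [mc] at hx
  | ct u b p => simp [mc] at hx
  | main t =>
  cases cy with
  | rt u b p => simp [mc] at hy
  | ct u b p => simp [mc] at hy
  | main u =>
    simp only [mc, Option.some.injEq, Prod.mk.injEq] at hx hy
    obtain ⟨rfl, rfl⟩ := hx
    obtain ⟨rfl, rfl⟩ := hy
    simp only [ent] at h
    simp only [Finset.mem_insert, Finset.mem_singleton, Prod.mk.injEq]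
    rcases h with ⟨e1, e2, e3⟩ | ⟨e1, e3⟩
    · left
      exact ⟨e1, by rw [e2, e1]⟩
    · right
      rcases S.bit t ix with _ | _
      · right; exact ⟨by omega, rfl⟩
      · left; exact ⟨by omega, rfl⟩

/-- for a row class, the column classes which can meet it -/
lemma class_nbr_col (S : Sys I M) (γ : ℕ × Bool) : ∃ N : Finset (ℕ × Bool), N.card ≤ 3 ∧
    ∀ (y x : Cls M k × I) δ, mc S y = some δ → mc S x = some γ → ent S x y → δ ∈ N := by
  classical
  obtain ⟨a, b⟩ := γ
  refine ⟨{(a, b), (a - 1, true), (a - 1, false)}, Finset.card_le_three, ?_⟩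
  rintro ⟨cy, iy⟩ ⟨cx, ix⟩ ⟨a', b'⟩ hy hx h
  cases cx with
  | rt u b p => simp [mc] at hx
  | ct u b p => simp [mc] at hx
  | main t =>
  cases cy with
  | rt u b p => simp [mc] at hy
  | ct u b p => simp [mc] at hy
  | main u =>
    simp only [mc, Option.some.injEq, Prod.mk.injEq] at hx hy
    obtain ⟨rfl, rfl⟩ := hx
    obtain ⟨rfl, rfl⟩ := hy
    simp only [ent] at h
    simp only [Finset.mem_insert, Finset.mem_singleton, Prod.mk.injEq]
    rcases h with ⟨e1, e2, e3⟩ | ⟨e1, e3⟩
    · left
      exact ⟨e1.symm, by rw [e2, e1]⟩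
    · right
      rcases S.bit u iy with _ | _
      · right; exact ⟨by omega, rfl⟩
      · left; exact ⟨by omega, rfl⟩

/-- adjacent tag rows and columns belong to the same gadget -/
lemma inst_eq (S : Sys I M) (x y : Cls M k × I) (c d : Bool × ℕ × Bool)
    (hx : inst x = some c) (hy : inst y = some d) (h : ent S x y) : c = d := by
  obtain ⟨cx, ix⟩ := x
  obtain ⟨cy, iy⟩ := y
  cases cx with
  | main t => simp [inst] at hx
  | rt u b p =>
    cases cy with
    | main t => simp [inst] at hy
    | rt u' b' p' =>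
      simp only [inst, Option.some.injEq] at hx hy
      simp only [ent] at h
      rw [← hx, ← hy, h.1, h.2.1]
    | ct u' b' p' => simp [ent] at h
  | ct u b p =>
    cases cy with
    | main t => simp [inst] at hy
    | ct u' b' p' =>
      simp only [inst, Option.some.injEq] at hx hy
      simp only [ent] at h
      rw [← hx, ← hy, h.1, h.2.1]
    | rt u' b' p' => simp [ent] at h

lemma mc_none_iff (S : Sys I M) (x : Cls M k × I) : mc S x = none ↔ inst x ≠ none := by
  obtain ⟨cx, ix⟩ := x
  cases cx <;> simp [mc, inst]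

section copy

variable (S : Sys I M) (R C : Fin k → Cls M k × I)

/-- all the tags used belong to the same gadget, and there are several of them -/
lemma same_gadget (hk : 13 ≤ k) (hE : ∀ a b, ent S (R a) (C b) ↔ a ≠ b) :
    ∃ c, (∀ a, inst (R a) = none ∨ inst (R a) = some c) ∧
      (∀ a, inst (C a) = none ∨ inst (C a) = some c) ∧
      (∀ b, ∃ a, a ≠ b ∧ inst (R a) = some c) ∧ (∀ b, ∃ a, a ≠ b ∧ inst (C a) = some c) := by
  classical
  have a0 : Fin k := ⟨0, by omega⟩
  have hfibC : ∀ γ, (univ.filter fun a => mc S (C a) = some γ).card ≤ 3 := by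
    intro γ
    obtain ⟨N, hN, hN'⟩ := class_nbr_row (k := k) S γ
    exact fiber_card (fun x y => ent S x y) R C hE (mc S) (mc S) γ N hN
      (fun x y1 y2 h1 h2 h3 h4 => tagrow_const S x y1 y2 γ h1 h2 h3 h4)
      (fun x y δ h1 h2 h3 => hN' x y δ h1 h2 h3)
      (fun x1 x2 y1 y2 δ h1 h2 h3 h4 h5 h6 => nested S x1 x2 y1 y2 γ δ h1 h2 h3 h4 h5 h6)
  have hE' : ∀ a b, ent S (R b) (C a) ↔ a ≠ b := fun a b => (hE b a).trans ne_comm
  have hfibR : ∀ γ, (univ.filter fun a => mc S (R a) = some γ).card ≤ 3 := by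
    intro γ
    obtain ⟨N, hN, hN'⟩ := class_nbr_col (k := k) S γ
    exact fiber_card (fun y x => ent S x y) C R hE' (mc S) (mc S) γ N hN
      (fun y x1 x2 h1 h2 h3 h4 => tagcol_const S y x1 x2 γ h1 h2 h3 h4)
      (fun y x δ h1 h2 h3 => hN' y x δ h1 h2 h3)
      (fun y1 y2 x1 x2 δ h1 h2 h3 h4 h5 h6 =>
        (nested S x1 x2 y1 y2 δ γ h3 h4 h1 h2 h6 h5))
  have hC10 : (univ.filter fun a => mc S (C a) ≠ none).card ≤ 10 := by
    obtain ⟨N, hN, hN'⟩ := row_nbr (k := k) S (R a0)
    exact main_card (fun x y => ent S x y) R C hE (mc S) a0 N hN hfibC hN'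
  have hR10 : (univ.filter fun a => mc S (R a) ≠ none).card ≤ 10 := by
    obtain ⟨N, hN, hN'⟩ := col_nbr (k := k) S (C a0)
    exact main_card (fun y x => ent S x y) C R hE' (mc S) a0 N hN hfibR hN'
  have hcount : ∀ f : Fin k → Cls M k × I, (univ.filter fun a => mc S (f a) ≠ none).card ≤ 10 →
      ∀ b b' : Fin k, ∃ a, a ≠ b ∧ a ≠ b' ∧ mc S (f a) = none := by
    intro f hf b b'
    by_contra hcon
    push Not at hcon
    have hsub : (univ : Finset (Fin k)) ⊆
        insert b (insert b' (univ.filter fun a => mc S (f a) ≠ none)) := by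
      intro a _
      by_cases h1 : a = b
      · simp [h1]
      by_cases h2 : a = b'
      · simp [h2]
      · simp only [Finset.mem_insert, Finset.mem_filter, Finset.mem_univ, true_and]
        right; right
        exact hcon a h1 h2
    have := Finset.card_le_card hsub
    rw [Finset.card_univ, Fintype.card_fin] at this
    have h2 := Finset.card_insert_le b (insert b' (univ.filter fun a => mc S (f a) ≠ none))
    have h3 := Finset.card_insert_le b' (univ.filter fun a => mc S (f a) ≠ none)
    omega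
  have htag : ∀ x : Cls M k × I, mc S x = none → ∃ c, inst x = some c := by
    intro x hx
    exact Option.ne_none_iff_exists'.mp ((mc_none_iff S x).mp hx)
  obtain ⟨a1, _, _, ha1⟩ := hcount R hR10 a0 a0
  obtain ⟨c, hc⟩ := htag _ ha1
  -- every tag column other than the partner of a1 is in c
  have hcolc : ∀ b, b ≠ a1 → mc S (C b) = none → inst (C b) = some c := by
    intro b hb hbt
    obtain ⟨d, hd⟩ := htag _ hbt
    rw [hd, inst_eq S _ _ c d hc hd ((hE a1 b).mpr hb.symm)]
  have hrowc : ∀ a, mc S (R a) = none → inst (R a) = some c := by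
    intro a ha
    obtain ⟨d, hd⟩ := htag _ ha
    obtain ⟨b, hb1, hb2, hbt⟩ := hcount C hC10 a a1
    have h1 := hcolc b hb2 hbt
    rw [hd, inst_eq S _ _ d c hd h1 ((hE a b).mpr hb1.symm)]
  have hcolc' : ∀ b, mc S (C b) = none → inst (C b) = some c := by
    intro b hbt
    obtain ⟨d, hd⟩ := htag _ hbt
    obtain ⟨a, ha1, _, hat⟩ := hcount R hR10 b b
    have h1 := hrowc a hat
    rw [hd, inst_eq S _ _ c d h1 hd ((hE a b).mpr ha1)]
  have hdich : ∀ x : Cls M k × I, (mc S x = none → inst x = some c) →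
      inst x = none ∨ inst x = some c := by
    intro x hx
    by_cases h : inst x = none
    · exact Or.inl h
    · exact Or.inr (hx ((mc_none_iff S x).mpr h))
  refine ⟨c, fun a => hdich _ (hrowc a), fun a => hdich _ (hcolc' a), ?_, ?_⟩
  · intro b
    obtain ⟨a, ha, _, hat⟩ := hcount R hR10 b b
    exact ⟨a, ha, hrowc a hat⟩
  · intro b
    obtain ⟨a, ha, _, hat⟩ := hcount C hC10 b b
    exact ⟨a, ha, hcolc' a hat⟩

end copy

end Vale.Agent.P037.Cx
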