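import Mathlib

/-!
Counterexample to polynomial ordered removal: the abstract system and the block matrix.
-/

namespace Vale.Agent.P037.Cx

open Finset

/-- row (and column) classes: main classes, and tag classes of the two kinds of gadgets -/
inductive Cls (M k : ℕ) : Type
  | main (t : Fin (M + 1)) : Cls M k
  | rt (t : Fin M) (b : Bool) (p : Fin k) : Cls M k
  | ct (t : Fin M) (b : Bool) (p : Fin k) : Cls M k

/-- the classes as a sum type -/
def Cls.equiv (M k : ℕ) :
    Cls M k ≃ Fin (M + 1) ⊕ ((Fin M × Bool × Fin k) ⊕ (Fin M × Bool × Fin k)) where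
  toFun c := match c with
    | .main t => Sum.inl t
    | .rt t b p => Sum.inr (Sum.inl (t, b, p))
    | .ct t b p => Sum.inr (Sum.inr (t, b, p))
  invFun c := match c with
    | Sum.inl t => .main t
    | Sum.inr (Sum.inl (t, b, p)) => .rt t b p
    | Sum.inr (Sum.inr (t, b, p)) => .ct t b p
  left_inv c := by cases c <;> rfl
  right_inv c := by
    rcases c with t | ⟨t, b, p⟩ | ⟨t, b, p⟩ <;> rfl

noncomputable instance (M k : ℕ) : Fintype (Cls M k) :=
  Fintype.ofEquiv _ (Cls.equiv M k).symm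

lemma card_cls (M k : ℕ) : Fintype.card (Cls M k) = (M + 1) + 2 * (M * (2 * k)) := by
  rw [Fintype.card_congr (Cls.equiv M k)]
  simp only [Fintype.card_sum, Fintype.card_prod, Fintype.card_fin, Fintype.card_bool]
  ring

/-- the abstract properties of the main blocks and of the orders -/
structure Sys (I : Type) (M : ℕ) where
  bit : ℕ → I → Bool
  z0 : ℕ → I → I → Prop
  z1 : ℕ → I → I → Prop
  le : ℕ → I → I → Prop
  kR : ℕ → I → ℕ
  kC : ℕ → I → ℕ
  Bad : I → I → I → Prop
  tb : Fin M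
  kR_lt : ∀ t < M, ∀ i' i, le t i' i → kR (t + 1) i' < kR t i
  kR_gt : ∀ t < M, ∀ i' i, ¬ le t i' i → kR t i < kR (t + 1) i'
  kC_lt : ∀ t < M, ∀ j j', le t j j' → kC t j < kC (t + 1) j'
  kC_gt : ∀ t < M, ∀ j j', ¬ le t j j' → kC (t + 1) j' < kC t j
  tr : ∀ t < M, ∀ i' i j, le t i' i → bit t i = bit t j → z0 t i j → ¬ z1 t i' j →
    t = tb ∧ Bad i' i j
  tr' : ∀ t < M, ∀ i' i j, ¬ le t i' i → bit t i = bit t j → z1 t i' j → z0 t i j
  tc : ∀ t < M, ∀ i j j', le t j j' → bit (t + 1) i = bit (t + 1) j' → z1 t i j →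
    z0 (t + 1) i j'
  tc' : ∀ t < M, ∀ i j j', ¬ le t j j' → bit (t + 1) i = bit (t + 1) j' → z0 (t + 1) i j' →
    z1 t i j
  nest0 : ∀ t i1 i2 j1 j2, z0 t i1 j2 → z0 t i2 j1 → z0 t i1 j1 ∨ z0 t i2 j2
  nest1 : ∀ t i1 i2 j1 j2, z1 t i1 j2 → z1 t i2 j1 → z1 t i1 j1 ∨ z1 t i2 j2
  z0_first : ∀ i j, z0 0 i j
  z0_last : ∀ i j, ¬ z0 M i j
  bit_first : ∀ i j, bit 0 i = bit 0 j
  bit_last : ∀ i j, bit M i = bit M j
  le_first : ∀ i j, le 0 i j
  le_last : ∀ t, t + 1 = M → ∀ i j, le t i j
  le_self : ∀ t i, le t i i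

variable {I : Type} {M k : ℕ}

/-- entries of the block matrix -/
def ent (S : Sys I M) (x y : Cls M k × I) : Prop :=
  match x.1, y.1 with
  | .main t, .main u =>
      (t.val = u.val ∧ S.bit t x.2 = S.bit t y.2 ∧ S.z0 t x.2 y.2) ∨
      (t.val = u.val + 1 ∧ S.z1 u x.2 y.2)
  | .main t, .rt u b q =>
      q.val ≠ 0 ∧ (t.val = u.val + 1 ∨ (t.val = u.val ∧ S.bit t x.2 = b ∧ q.val ≠ 1))
  | .main t, .ct u b q => q.val + 2 < k ∧ t.val = u.val + 1 ∧ S.bit t x.2 = b
  | .rt u b p, .main t => 2 ≤ p.val ∧ t.val = u.val ∧ S.bit t y.2 = b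
  | .ct u b p, .main t =>
      p.val + 1 < k ∧ ((t.val = u.val ∧ p.val + 2 < k) ∨ (t.val = u.val + 1 ∧ S.bit t y.2 = b))
  | .rt u b p, .rt u' b' q => u = u' ∧ b = b' ∧ 2 ≤ p.val ∧ 1 ≤ q.val ∧ p ≠ q
  | .ct u b p, .ct u' b' q => u = u' ∧ b = b' ∧ p.val + 1 < k ∧ q.val + 2 < k ∧ p ≠ q
  | .rt _ _ _, .ct _ _ _ => False
  | .ct _ _ _, .rt _ _ _ => False

/-- the order of the rows -/
def fR (S : Sys I M) (x : Cls M k × I) : ℕ ×ₗ ℕ :=
  match x.1 with
  | .main t => toLex (1, S.kR t x.2)
  | .rt _ _ p => toLex (2, p.val)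
  | .ct _ _ p => toLex (0, p.val)

/-- the order of the columns -/
def fC (S : Sys I M) (x : Cls M k × I) : ℕ ×ₗ ℕ :=
  match x.1 with
  | .main t => toLex (1, S.kC t x.2)
  | .rt _ _ p => toLex (2, p.val)
  | .ct _ _ p => toLex (0, p.val)

/-- the main class of a row or column, with its bit -/
def mc (S : Sys I M) (x : Cls M k × I) : Option (ℕ × Bool) :=
  match x.1 with
  | .main t => some (t.val, S.bit t x.2)
  | _ => none

/-- the gadget of a tag row or column -/
def inst (x : Cls M k × I) : Option (Bool × ℕ × Bool) :=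
  match x.1 with
  | .main _ => none
  | .rt u b _ => some (true, u.val, b)
  | .ct u b _ => some (false, u.val, b)

section general

/-- a class of columns is used only a few times by a copy of the complement of the identity -/
lemma fiber_card {X Y κ : Type} [DecidableEq κ] (E : X → Y → Prop) (R : Fin k → X)
    (C : Fin k → Y) (hE : ∀ a b, E (R a) (C b) ↔ a ≠ b) (mX : X → Option κ)
    (mY : Y → Option κ) (γ : κ) (N : Finset κ) (hN : N.card ≤ 3)
    (h1 : ∀ x y1 y2, mX x = none → mY y1 = some γ → mY y2 = some γ → E x y1 → E x y2)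
    (h2 : ∀ x y κ', mX x = some κ' → mY y = some γ → E x y → κ' ∈ N)
    (h3 : ∀ x1 x2 y1 y2 κ', mX x1 = some κ' → mX x2 = some κ' → mY y1 = some γ →
      mY y2 = some γ → E x1 y2 → E x2 y1 → E x1 y1 ∨ E x2 y2) :
    (univ.filter fun a => mY (C a) = some γ).card ≤ 3 := by
  classical
  set U := univ.filter fun a => mY (C a) = some γ with hU
  by_cases hcard : U.card ≤ 1
  · omega
  push Not at hcard
  have key : ∀ a ∈ U, ∃ κ' ∈ N, mX (R a) = some κ' := by
    intro a ha
    obtain ⟨a2, ha2, hne⟩ := Finset.exists_mem_ne hcard a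
    have hya : mY (C a) = some γ := by simpa [hU] using ha
    have hya2 : mY (C a2) = some γ := by simpa [hU] using ha2
    have hE2 : E (R a) (C a2) := (hE a a2).mpr hne.symm
    rcases hm : mX (R a) with _ | κ'
    · exact absurd ((hE a a).mp (h1 _ _ _ hm hya2 hya hE2)) (by simp)
    · exact ⟨κ', h2 _ _ _ hm hya2 hE2, rfl⟩
  have hinj : Set.InjOn (fun a => mX (R a)) (U : Set (Fin k)) := by
    intro a ha a' ha' heq
    by_contra hne
    have ha0 : a ∈ U := ha
    have ha0' : a' ∈ U := ha'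
    obtain ⟨κ', _, hκ⟩ := key a ha0
    have hκ' : mX (R a') = some κ' := by
      have : mX (R a) = mX (R a') := heq
      rw [← this, hκ]
    have hya : mY (C a) = some γ := by simpa [hU] using ha0
    have hya' : mY (C a') = some γ := by simpa [hU] using ha0'
    rcases h3 _ _ _ _ _ hκ hκ' hya hya' ((hE a a').mpr hne) ((hE a' a).mpr (Ne.symm hne)) with
      h | h
    · exact absurd ((hE _ _).mp h) (by simp)
    · exact absurd ((hE _ _).mp h) (by simp)
  calc U.card = (U.image fun a => mX (R a)).card := (Finset.card_image_of_injOn hinj).symm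
    _ ≤ (N.image some).card := by
        apply Finset.card_le_card
        intro v hv
        obtain ⟨a, ha, rfl⟩ := Finset.mem_image.mp hv
        obtain ⟨κ', hκN, hκ⟩ := key a ha
        simp only [hκ]
        exact Finset.mem_image_of_mem _ hκN
    _ ≤ N.card := Finset.card_image_le
    _ ≤ 3 := hN

/-- few indices have a main column -/
lemma main_card {X Y κ : Type} [DecidableEq κ] (E : X → Y → Prop) (R : Fin k → X)
    (C : Fin k → Y) (hE : ∀ a b, E (R a) (C b) ↔ a ≠ b)
    (mY : Y → Option κ) (a0 : Fin k) (N : Finset κ) (hN : N.card ≤ 3)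
    (hfib : ∀ γ, (univ.filter fun a => mY (C a) = some γ).card ≤ 3)
    (h2 : ∀ y γ, mY y = some γ → E (R a0) y → γ ∈ N) :
    (univ.filter fun a => mY (C a) ≠ none).card ≤ 10 := by
  classical
  set U := (univ.filter fun a => mY (C a) ≠ none).erase a0 with hU
  have hsub : (univ.filter fun a => mY (C a) ≠ none) ⊆ insert a0 U := by
    intro a ha
    by_cases h : a = a0
    · exact Finset.mem_insert.mpr (Or.inl h)
    · exact Finset.mem_insert.mpr (Or.inr (Finset.mem_erase.mpr ⟨h, ha⟩))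
  have h9 : U.card ≤ 9 := by
    have hmaps : ∀ a ∈ U, mY (C a) ∈ N.image some := by
      intro a ha
      rw [hU, Finset.mem_erase] at ha
      obtain ⟨hne, hmem⟩ := ha
      have hm : mY (C a) ≠ none := by simpa using hmem
      obtain ⟨γ, hγ⟩ := Option.ne_none_iff_exists'.mp hm
      rw [hγ]
      exact Finset.mem_image_of_mem _ (h2 _ _ hγ ((hE _ _).mpr (Ne.symm hne)))
    have h3 : ∀ v ∈ N.image some, (U.filter fun a => mY (C a) = v).card ≤ 3 := by
      intro v hv
      obtain ⟨γ, _, rfl⟩ := Finset.mem_image.mp hv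
      refine (Finset.card_le_card ?_).trans (hfib γ)
      intro a ha
      simp only [Finset.mem_filter, Finset.mem_univ, true_and] at ha ⊢
      exact ha.2
    have := Finset.card_le_mul_card_image_of_maps_to hmaps 3 h3
    have h5 : (N.image some).card ≤ 3 := Finset.card_image_le.trans hN
    nlinarith
  calc (univ.filter fun a => mY (C a) ≠ none).card ≤ (insert a0 U).card :=
        Finset.card_le_card hsub
    _ ≤ U.card + 1 := Finset.card_insert_le _ _
    _ ≤ 10 := by omega

end general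

end Vale.Agent.P037.Cx
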